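import Vale.Agent.P036.Select

/-! The averaging and deletion argument. -/

namespace Vale.Agent.P036

open Finset

set_option linter.unusedSectionVars false

variable {Q j : ℕ} [Fact Q.Prime] [Fact j.Prime]
variable {I T : Type*} [Fintype I] [DecidableEq I] [DecidableEq T]

def Dist (cls : I → T) (i : I × I × I) : Prop :=
  cls i.1 ≠ cls i.2.1 ∧ cls i.1 ≠ cls i.2.2 ∧ cls i.2.1 ≠ cls i.2.2

instance (cls : I → T) : DecidablePred (Dist cls) := fun _ => by unfold Dist; infer_instance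

structure Internal (Q : ℕ) (A : ℕ) (cls : I → T) (w : I → Fin 3 → ZMod Q) : Prop where
  far : ∀ i : I × I × I, Dist cls i → ∀ a : ℤ, |a| < A → det3 (w i.1) (w i.2.1) (w i.2.2) ≠ a
  indep : ∀ i i', i ≠ i' → cross (w i) (w i') ≠ 0
  ne : ∀ i, w i ≠ 0
  rel : ∀ i : I × I × I, ¬ Dist cls i → ∀ v : Fin 3 → ZMod Q,
    (∀ k, v 0 * w i.1 k + v 1 * w i.2.1 k + v 2 * w i.2.2 k = 0) → v 0 + v 1 + v 2 = 0

lemma per_index {J A : ℕ} {ν : ZMod j} (hν : ¬ IsSquare ν) (hj : Q * J ≤ j) (hA : 2 * A ≤ Q)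
    {cls : I → T} {w : I → Fin 3 → ZMod Q} (hw : Internal Q A cls w) (i : I × I × I)
    (S : Finset (V3 × V3 × V3)) (hS : ∀ t ∈ S, Geo (Q * J) A ν t) :
    ((∑ t ∈ S, (GG (w i.1) (w i.2.1) (w i.2.2) t).card : ℕ) : ℝ) ≤
      (if ¬ Dist cls i then R1 (Q * J) + (Q : ℝ) ^ 3 * R2 (Q * J) Q else 0) +
      (if i.1 = i.2.1 ∧ i.1 = i.2.2 then (Q : ℝ) ^ 5 * R3 (Q * J) J else 0) := by
  classical
  have r1 := R1_nonneg (Q * J)
  have r2 := R2_nonneg (Q * J) Q
  have r3 := R3_nonneg (Q * J) J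
  by_cases hd : Dist cls i
  · rw [Finset.sum_eq_zero]
    · simp only [hd, not_true, if_false]
      split_ifs <;> simp; positivity
    · intro t ht
      rw [card_eq_zero]
      by_contra hne
      obtain ⟨g, hg⟩ := nonempty_iff_ne_empty.2 hne
      exact hw.far i hd _ (hS t ht).2.2.2.2.2.2.1 (GG_det hg)
  · rw [← Finset.sum_filter_add_sum_filter_not S (fun t => det3 t.1 t.2.1 t.2.2 = 0)]
    push_cast
    have p1 := part1 (N := Q * J) (ν := ν) hA (w i.1) (w i.2.1) (w i.2.2)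
      (S.filter (fun t => ¬ det3 t.1 t.2.1 t.2.2 = 0))
      (fun t ht => ⟨hS t (mem_filter.1 ht).1, (mem_filter.1 ht).2⟩)
    push_cast at p1
    simp only [hd, not_false_eq_true, if_true]
    split_ifs with he
    · obtain ⟨i1, i2, i3⟩ := i
      dsimp only at *
      obtain ⟨rfl, rfl⟩ := he
      have p3 := part3 (A := A) hν hj (w i1) (hw.ne i1)
        (S.filter (fun t => det3 t.1 t.2.1 t.2.2 = 0))
        (fun t ht => ⟨hS t (mem_filter.1 ht).1, (mem_filter.1 ht).2⟩)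
      push_cast at p3
      have : 0 ≤ (Q : ℝ) ^ 3 * R2 (Q * J) Q := by positivity
      linarith
    · have p2 := part2 (A := A) hν hj (w i.1) (w i.2.1) (w i.2.2) (by
          by_cases h1 : i.1 = i.2.1
          · right; exact hw.indep _ _ (fun h => he ⟨h1, h⟩)
          · left; exact hw.indep _ _ h1) (hw.rel i hd)
        (S.filter (fun t => det3 t.1 t.2.1 t.2.2 = 0))
        (fun t ht => ⟨hS t (mem_filter.1 ht).1, (mem_filter.1 ht).2⟩)
      push_cast at p2
      linarith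

noncomputable def cand (N : ℕ) (w : I → Fin 3 → ZMod Q) (g : Fin 3 → Fin 3 → ZMod Q) :
    Finset V3 := (Om N).filter (fun X => ∃ i, act g (w i) = cz Q X)

noncomputable def Sel (N : ℕ) (w : I → Fin 3 → ZMod Q) (ν : ZMod j)
    (p : (Fin 3 → Fin 3 → ZMod Q) × (Fin 4 → ZMod j)) : Finset V3 :=
  (cand N w p.1).filter (fun X => sel ν p.2 (cz j X))

noncomputable def BP (S : Finset V3) : Finset (V3 × V3) :=
  (S ×ˢ S).filter (fun s => s.1 ≠ s.2 ∧ cross s.1 s.2 = 0)

noncomputable def BT (A : ℕ) (S : Finset V3) : Finset (V3 × V3 × V3) :=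
  (S ×ˢ S ×ˢ S).filter (fun t => cross t.1 t.2.1 ≠ 0 ∧ cross t.1 t.2.2 ≠ 0 ∧
    cross t.2.1 t.2.2 ≠ 0 ∧ |det3 t.1 t.2.1 t.2.2| < A)

lemma card_cand {J A : ℕ} {cls : I → T} {w : I → Fin 3 → ZMod Q} (hw : Internal Q A cls w)
    {g : Fin 3 → Fin 3 → ZMod Q} (hg : g ∈ SL (ZMod Q)) :
    (cand (Q * J) w g).card = Fintype.card I * J ^ 3 := by
  classical
  have hQ : 0 < Q := (Fact.out : Q.Prime).pos
  have : cand (Q * J) w g = univ.biUnion
      (fun i => (Om (Q * J)).filter (fun X => cz Q X = act g (w i))) := by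
    ext X
    simp only [cand, mem_filter, mem_biUnion, mem_univ, true_and]
    constructor
    · rintro ⟨h, i, hi⟩; exact ⟨i, h, hi.symm⟩
    · rintro ⟨i, h, hi⟩; exact ⟨h, i, hi.symm⟩
  rw [this, card_biUnion]
  · simp only [card_cong3 Q J hQ]
    simp
  · intro i _ i' _ hii
    simp only [Function.onFun]
    rw [disjoint_filter]
    intro X _ h1 h2
    apply hw.indep i i' hii
    have : w i - w i' = 0 := by
      apply act_inj hg
      funext k
      have := congrFun (h1.symm.trans h2) k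
      simp only [act, dot, Pi.sub_apply, Pi.zero_apply] at this ⊢
      linear_combination this
    rw [sub_eq_zero.1 this, cross_self]

lemma sum_filter_swap {α β : Type*} (s : Finset α) (t : Finset β) (P : α → β → Prop)
    [∀ a b, Decidable (P a b)] :
    ∑ a ∈ s, (t.filter (fun b => P a b)).card = ∑ b ∈ t, (s.filter (fun a => P a b)).card := by
  simp only [card_filter]
  exact Finset.sum_comm

lemma sum_Sel {J A : ℕ} {cls : I → T} {w : I → Fin 3 → ZMod Q} (hw : Internal Q A cls w)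
    (ν : ZMod j) :
    ∑ p ∈ SL (ZMod Q) ×ˢ (univ : Finset (Fin 4 → ZMod j)), (Sel (Q * J) w ν p).card
      = (SL (ZMod Q)).card * (Fintype.card I * J ^ 3 * ((j - 1) * j ^ 2)) := by
  rw [sum_product]
  rw [Finset.sum_congr rfl (g := fun _ => Fintype.card I * J ^ 3 * ((j - 1) * j ^ 2))]
  · simp
  · intro g hg
    simp only [Sel]
    rw [sum_filter_swap]
    simp only [card_sel1, ZMod.card]
    rw [← card_cand hw hg]
    simp

lemma card_prop {N : ℕ} {X : V3} (hX : X ∈ Om N) (S : Finset V3)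
    (hS : ∀ Y ∈ S, Y ∈ Om N ∧ cross X Y = 0) : S.card ≤ N := by
  have : N = (Finset.Ico (N : ℤ) (2 * N)).card := by simp; omega
  rw [this]
  apply card_le_card_of_injOn (fun Y => Y 2)
  · intro Y hY
    have := (mem_Om.1 (hS Y hY).1).2.2
    simpa using this
  · intro Y hY Y' hY' he
    have h1 := (hS Y hY).2
    have h2 := (hS Y' hY').2
    have h3 := (mem_Om.1 hX)
    have h4 : X 2 ≠ 0 := by omega
    rw [vec3_eq_zero] at h1 h2
    simp only [cross_0, cross_1, cross_2] at h1 h2 he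
    rw [vec3_ext]
    refine ⟨mul_left_cancel₀ h4 ?_, mul_left_cancel₀ h4 ?_, he⟩
    · linear_combination h1.2.1 - h2.2.1 + X 0 * he
    · linear_combination h2.1 - h1.1 + X 1 * he

lemma sum_BP {J A : ℕ} {cls : I → T} {w : I → Fin 3 → ZMod Q} (hw : Internal Q A cls w)
    (ν : ZMod j) (hj : Q * J ≤ j) :
    ∑ p ∈ SL (ZMod Q) ×ˢ (univ : Finset (Fin 4 → ZMod j)), (BP (Sel (Q * J) w ν p)).card
      ≤ (SL (ZMod Q)).card * (Fintype.card I * J ^ 3 * (Q * J) * j ^ 2) := by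
  classical
  rw [sum_product]
  refine le_trans (sum_le_card_nsmul _ _ (Fintype.card I * J ^ 3 * (Q * J) * j ^ 2) ?_) (by simp)
  intro g hg
  have e : ∀ θ, BP (Sel (Q * J) w ν (g, θ)) = (BP (cand (Q * J) w g)).filter
      (fun s => sel ν θ (cz j s.1) ∧ sel ν θ (cz j s.2)) := by
    intro θ
    ext s
    simp only [BP, Sel, mem_filter, mem_product]
    tauto
  simp only [e]
  rw [sum_filter_swap]
  refine le_trans (sum_le_card_nsmul _ _ (j ^ 2) ?_) ?_
  · intro s hs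
    simp only [BP, cand, mem_filter, mem_product] at hs
    have := card_sel2 ν (X := cz j s.1) (Y := cz j s.2)
      (fun h => hs.2.1 (cz_inj hj hs.1.1.1 hs.1.2.1 h))
    rwa [ZMod.card] at this
  · rw [smul_eq_mul, ← card_cand hw hg]
    gcongr
    have := card_le_mul_card_image_of_maps_to (f := Prod.fst) (s := BP (cand (Q * J) w g))
      (t := cand (Q * J) w g) (by
        intro s hs
        simp only [BP, mem_filter, mem_product] at hs
        exact hs.1.1) (Q * J) (by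
        intro X hX
        have hc : ((BP (cand (Q * J) w g)).filter (fun s => s.1 = X)).card =
            (((BP (cand (Q * J) w g)).filter (fun s => s.1 = X)).image Prod.snd).card := by
          rw [card_image_of_injOn]
          intro s hs t ht hst
          have h1 := (mem_filter.1 hs).2
          have h2 := (mem_filter.1 ht).2
          ext1
          · rw [h1, h2]
          · exact hst
        rw [hc]
        apply card_prop (mem_filter.1 hX).1
        intro Y hY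
        obtain ⟨s, hs, rfl⟩ := mem_image.1 hY
        simp only [BP, cand, mem_filter, mem_product] at hs
        exact ⟨hs.1.1.2.1, hs.2 ▸ hs.1.2.2⟩)
    linarith

lemma sum_BT {J A : ℕ} {ν : ZMod j} (hν : ¬ IsSquare ν) (hj : Q * J ≤ j) (hA : 2 * A ≤ Q)
    {cls : I → T} {w : I → Fin 3 → ZMod Q} (hw : Internal Q A cls w) :
    ((∑ p ∈ SL (ZMod Q) ×ˢ (univ : Finset (Fin 4 → ZMod j)),
      (BT A (Sel (Q * J) w ν p)).card : ℕ) : ℝ)
      ≤ j * (((univ : Finset (I × I × I)).filter (fun i => ¬ Dist cls i)).card *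
          (R1 (Q * J) + (Q : ℝ) ^ 3 * R2 (Q * J) Q) +
          Fintype.card I * ((Q : ℝ) ^ 5 * R3 (Q * J) J)) := by
  classical
  set N := Q * J with hN
  let G0 : Finset (V3 × V3 × V3) := (Om N ×ˢ Om N ×ˢ Om N).filter (Geo N A ν)
  let P : (Fin 3 → Fin 3 → ZMod Q) × (Fin 4 → ZMod j) → V3 × V3 × V3 → Prop := fun p t =>
    (t.1 ∈ cand N w p.1 ∧ t.2.1 ∈ cand N w p.1 ∧ t.2.2 ∈ cand N w p.1) ∧
      (sel ν p.2 (cz j t.1) ∧ sel ν p.2 (cz j t.2.1) ∧ sel ν p.2 (cz j t.2.2))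
  have h1 : ∀ p, (BT A (Sel N w ν p)).card ≤ (G0.filter (P p)).card := by
    intro p
    apply card_le_card
    intro t ht
    simp only [BT, Sel, mem_filter, mem_product] at ht
    obtain ⟨⟨⟨a1, a2⟩, ⟨b1, b2⟩, c1, c2⟩, d1, d2, d3, d4⟩ := ht
    have o1 := (mem_filter.1 a1).1
    have o2 := (mem_filter.1 b1).1
    have o3 := (mem_filter.1 c1).1
    simp only [G0, P, mem_filter, mem_product]
    exact ⟨⟨⟨o1, o2, o3⟩, o1, o2, o3, d1, d2, d3, d4, p.2, a2, b2, c2⟩, ⟨a1, b1, c1⟩, a2, b2, c2⟩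
  have h2 : ∀ t ∈ G0, ((SL (ZMod Q) ×ˢ (univ : Finset (Fin 4 → ZMod j))).filter
      (fun p => P p t)).card ≤
      j * ∑ i : I × I × I, (GG (w i.1) (w i.2.1) (w i.2.2) t).card := by
    intro t ht
    have hG : Geo N A ν t := (mem_filter.1 ht).2
    obtain ⟨n1, n2, n3⟩ := hG.ne hj
    simp only [P]
    rw [filter_product (fun g => t.1 ∈ cand N w g ∧ t.2.1 ∈ cand N w g ∧ t.2.2 ∈ cand N w g)
      (fun θ => sel ν θ (cz j t.1) ∧ sel ν θ (cz j t.2.1) ∧ sel ν θ (cz j t.2.2)), card_product,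
      mul_comm]
    apply Nat.mul_le_mul
    · have := card_sel3 hν n1 n2 n3
      rwa [ZMod.card] at this
    · refine le_trans (card_le_card ?_) card_biUnion_le
      intro g hg
      simp only [cand, mem_filter] at hg
      obtain ⟨hg, ⟨-, i1, e1⟩, ⟨-, i2, e2⟩, -, i3, e3⟩ := hg
      rw [mem_biUnion]
      refine ⟨(i1, i2, i3), mem_univ _, ?_⟩
      rw [GG, mem_filter]
      exact ⟨hg, e1, e2, e3⟩
  have h3 : ∑ p ∈ SL (ZMod Q) ×ˢ (univ : Finset (Fin 4 → ZMod j)), (BT A (Sel N w ν p)).card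
      ≤ j * ∑ i : I × I × I, ∑ t ∈ G0, (GG (w i.1) (w i.2.1) (w i.2.2) t).card := by
    calc _ ≤ ∑ p ∈ SL (ZMod Q) ×ˢ (univ : Finset (Fin 4 → ZMod j)), (G0.filter (P p)).card :=
          sum_le_sum fun p _ => h1 p
      _ = _ := sum_filter_swap _ _ _
      _ ≤ ∑ t ∈ G0, j * ∑ i : I × I × I, (GG (w i.1) (w i.2.1) (w i.2.2) t).card :=
          sum_le_sum h2
      _ = _ := by rw [← Finset.mul_sum, Finset.sum_comm]
  have h4 : ∀ i : I × I × I, ((∑ t ∈ G0, (GG (w i.1) (w i.2.1) (w i.2.2) t).card : ℕ) : ℝ) ≤ _ :=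
    fun i => per_index hν hj hA hw i G0 (fun t ht => (mem_filter.1 ht).2)
  have h5 : ((univ : Finset (I × I × I)).filter (fun i => i.1 = i.2.1 ∧ i.1 = i.2.2)).card
      ≤ Fintype.card I := by
    rw [← card_univ]
    apply card_le_card_of_injOn (fun i => i.1) (by simp)
    rintro ⟨a, b, c⟩ h ⟨a', b', c'⟩ h' he
    simp only [coe_filter, mem_univ, true_and, Set.mem_ofPred_eq] at h h' he
    obtain ⟨rfl, rfl⟩ := h
    obtain ⟨rfl, rfl⟩ := h'
    rw [he]
  calc _ ≤ ((j * ∑ i : I × I × I, ∑ t ∈ G0, (GG (w i.1) (w i.2.1) (w i.2.2) t).card : ℕ) : ℝ) := by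
        exact_mod_cast h3
    _ = j * ∑ i : I × I × I, ((∑ t ∈ G0, (GG (w i.1) (w i.2.1) (w i.2.2) t).card : ℕ) : ℝ) := by
        push_cast; rfl
    _ ≤ _ := by
        apply mul_le_mul_of_nonneg_left _ (Nat.cast_nonneg _)
        refine le_trans (sum_le_sum fun i _ => h4 i) ?_
        rw [sum_add_distrib, ← sum_filter, ← sum_filter, sum_const, sum_const, nsmul_eq_mul,
          nsmul_eq_mul]
        have r3 := R3_nonneg N J
        gcongr

lemma deletion (A : ℕ) (S : Finset V3) : ∃ S' ⊆ S,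
    (S.card : ℝ) - (BP S).card - (BT A S).card ≤ S'.card ∧
    (∀ X ∈ S', ∀ Y ∈ S', X ≠ Y → cross X Y ≠ 0) ∧
    (∀ X ∈ S', ∀ Y ∈ S', ∀ Z ∈ S', X ≠ Y → X ≠ Z → Y ≠ Z → (A : ℤ) ≤ |det3 X Y Z|) := by
  classical
  have hp : ∀ X ∈ S \ ((BP S).image Prod.fst ∪ (BT A S).image Prod.fst),
      ∀ Y ∈ S \ ((BP S).image Prod.fst ∪ (BT A S).image Prod.fst), X ≠ Y → cross X Y ≠ 0 := by
    intro X hX Y hY hXY h0
    rw [mem_sdiff, mem_union, not_or] at hX hY
    apply hX.2.1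
    rw [mem_image]
    refine ⟨(X, Y), ?_, rfl⟩
    simp only [BP, mem_filter, mem_product]
    exact ⟨⟨hX.1, hY.1⟩, hXY, h0⟩
  refine ⟨S \ ((BP S).image Prod.fst ∪ (BT A S).image Prod.fst), sdiff_subset, ?_, hp, ?_⟩
  · have h1 := le_card_sdiff ((BP S).image Prod.fst ∪ (BT A S).image Prod.fst) S
    have h2 := card_union_le ((BP S).image Prod.fst) ((BT A S).image Prod.fst)
    have h3 := card_image_le (s := BP S) (f := Prod.fst)
    have h4 := card_image_le (s := BT A S) (f := Prod.fst)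
    have h5 : S.card ≤ (S \ ((BP S).image Prod.fst ∪ (BT A S).image Prod.fst)).card
        + (BP S).card + (BT A S).card := by omega
    have h6 : (S.card : ℝ) ≤ (S \ ((BP S).image Prod.fst ∪ (BT A S).image Prod.fst)).card
        + (BP S).card + (BT A S).card := by exact_mod_cast h5
    linarith
  · intro X hX Y hY Z hZ hXY hXZ hYZ
    by_contra hlt
    push Not at hlt
    have c1 := hp X hX Y hY hXY
    have c2 := hp X hX Z hZ hXZ
    have c3 := hp Y hY Z hZ hYZ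
    rw [mem_sdiff, mem_union, not_or] at hX hY hZ
    apply hX.2.2
    rw [mem_image]
    refine ⟨(X, Y, Z), ?_, rfl⟩
    simp only [BT, mem_filter, mem_product]
    exact ⟨⟨hX.1, hY.1, hZ.1⟩, c1, c2, c3, hlt⟩

theorem average {J A : ℕ} (hj2 : j ≠ 2) (hj : Q * J ≤ j) (hA : 2 * A ≤ Q)
    {cls : I → T} {w : I → Fin 3 → ZMod Q} (hw : Internal Q A cls w) (n : ℝ)
    (hn : n * (j : ℝ) ^ 4 ≤ Fintype.card I * (J : ℝ) ^ 3 * (((j : ℝ) - 1) * j ^ 2)
      - Fintype.card I * (J : ℝ) ^ 3 * (Q * J) * j ^ 2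
      - 4 * j * (((univ : Finset (I × I × I)).filter (fun i => ¬ Dist cls i)).card *
          (R1 (Q * J) + (Q : ℝ) ^ 3 * R2 (Q * J) Q) +
          Fintype.card I * ((Q : ℝ) ^ 5 * R3 (Q * J) J)) / (Q : ℝ) ^ 8) :
    ∃ S ⊆ Om (Q * J), n ≤ S.card ∧ (∀ X ∈ S, ∀ Y ∈ S, X ≠ Y → cross X Y ≠ 0) ∧
      (∀ X ∈ S, ∀ Y ∈ S, ∀ Z ∈ S, X ≠ Y → X ≠ Z → Y ≠ Z → (A : ℤ) ≤ |det3 X Y Z|) := by
  classical
  obtain ⟨ν, hν⟩ : ∃ ν : ZMod j, ¬ IsSquare ν := by
    apply FiniteField.exists_nonsquare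
    rw [ZMod.ringChar_zmod_n]; exact hj2
  have hQ : 0 < Q := (Fact.out : Q.Prime).pos
  have hj0 : 0 < j := (Fact.out : j.Prime).pos
  have hSL := card_SL_ge (F := ZMod Q)
  rw [ZMod.card] at hSL
  have hSLr : (Q : ℝ) ^ 8 ≤ 4 * (SL (ZMod Q)).card := by exact_mod_cast hSL
  have hSL0 : 0 < (SL (ZMod Q)).card := by
    have : 0 < Q ^ 8 := by positivity
    omega
  have e1 := sum_Sel (J := J) hw ν
  have e2 := sum_BP (J := J) hw ν hj
  have e3 := sum_BT hν hj hA hw
  set Bd := (((univ : Finset (I × I × I)).filter (fun i => ¬ Dist cls i)).card *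
          (R1 (Q * J) + (Q : ℝ) ^ 3 * R2 (Q * J) Q) +
          Fintype.card I * ((Q : ℝ) ^ 5 * R3 (Q * J) J)) with hBd
  have hBd0 : 0 ≤ Bd := by
    have r1 := R1_nonneg (Q * J)
    have r2 := R2_nonneg (Q * J) Q
    have r3 := R3_nonneg (Q * J) J
    rw [hBd]; positivity
  set P := SL (ZMod Q) ×ˢ (univ : Finset (Fin 4 → ZMod j)) with hP
  have hPc : (P.card : ℝ) = (SL (ZMod Q)).card * (j : ℝ) ^ 4 := by
    rw [hP, card_product]; simp [ZMod.card]
  have hPne : P.Nonempty := by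
    rw [hP]
    exact (card_pos.1 hSL0).product univ_nonempty
  obtain ⟨p, hp, hle⟩ := Finset.exists_le_of_sum_le (f := fun _ => n)
    (g := fun p => ((Sel (Q * J) w ν p).card : ℝ) - (BP (Sel (Q * J) w ν p)).card
      - (BT A (Sel (Q * J) w ν p)).card) hPne (by
      rw [sum_sub_distrib, sum_sub_distrib, sum_const, nsmul_eq_mul, hPc]
      have f1 : ∑ p ∈ P, ((Sel (Q * J) w ν p).card : ℝ) = (SL (ZMod Q)).card *
          (Fintype.card I * (J : ℝ) ^ 3 * (((j : ℝ) - 1) * j ^ 2)) := by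
        have := congrArg (Nat.cast : ℕ → ℝ) e1
        push_cast [Nat.cast_sub hj0] at this
        exact this
      have f2 : ∑ p ∈ P, ((BP (Sel (Q * J) w ν p)).card : ℝ) ≤ (SL (ZMod Q)).card *
          (Fintype.card I * (J : ℝ) ^ 3 * (Q * J) * j ^ 2) := by exact_mod_cast e2
      have f3 : ∑ p ∈ P, ((BT A (Sel (Q * J) w ν p)).card : ℝ) ≤ (SL (ZMod Q)).card *
          (4 * j * Bd / (Q : ℝ) ^ 8) := by
        push_cast at e3
        refine e3.trans ?_
        rw [← mul_div_assoc, le_div_iff₀ (by positivity)]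
        calc j * Bd * (Q : ℝ) ^ 8 ≤ j * Bd * (4 * (SL (ZMod Q)).card) := by gcongr
          _ = _ := by ring
      have f4 := mul_le_mul_of_nonneg_left hn (Nat.cast_nonneg (α := ℝ) (SL (ZMod Q)).card)
      nlinarith)
  obtain ⟨S', h1, h2, h3, h4⟩ := deletion A (Sel (Q * J) w ν p)
  refine ⟨S', h1.trans ((filter_subset _ _).trans (filter_subset _ _)), hle.trans h2, h3, h4⟩

end Vale.Agent.P036
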