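import Mathlib

/-! Basic vector algebra in dimension three. -/

namespace Vale.Agent.P036

variable {R : Type*} [CommRing R]

def dot (a b : Fin 3 → R) : R := a 0 * b 0 + a 1 * b 1 + a 2 * b 2

def cross (a b : Fin 3 → R) : Fin 3 → R :=
  ![a 1 * b 2 - a 2 * b 1, a 2 * b 0 - a 0 * b 2, a 0 * b 1 - a 1 * b 0]

def det3 (a b c : Fin 3 → R) : R := dot (cross a b) c

@[simp] lemma cross_0 (a b : Fin 3 → R) : cross a b 0 = a 1 * b 2 - a 2 * b 1 := rfl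
@[simp] lemma cross_1 (a b : Fin 3 → R) : cross a b 1 = a 2 * b 0 - a 0 * b 2 := rfl
@[simp] lemma cross_2 (a b : Fin 3 → R) : cross a b 2 = a 0 * b 1 - a 1 * b 0 := rfl

lemma det3_eq (a b c : Fin 3 → R) : det3 a b c =
    (a 1 * b 2 - a 2 * b 1) * c 0 + (a 2 * b 0 - a 0 * b 2) * c 1
      + (a 0 * b 1 - a 1 * b 0) * c 2 := rfl

lemma vec3_eq_zero {a : Fin 3 → R} : a = 0 ↔ a 0 = 0 ∧ a 1 = 0 ∧ a 2 = 0 := by
  constructor
  · rintro rfl; simp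
  · rintro ⟨h0, h1, h2⟩
    funext i; fin_cases i <;> simpa

lemma vec3_ext {α : Type*} {a b : Fin 3 → α} : a = b ↔ a 0 = b 0 ∧ a 1 = b 1 ∧ a 2 = b 2 := by
  constructor
  · rintro rfl; simp
  · rintro ⟨h0, h1, h2⟩
    funext i; fin_cases i <;> simpa

/-- sup norm of an integer vector -/
def nrm (W : Fin 3 → ℤ) : ℕ := max (W 0).natAbs (max (W 1).natAbs (W 2).natAbs)

noncomputable def box (N : ℕ) : Finset (Fin 3 → ℤ) := Fintype.piFinset (fun _ => Finset.Icc (-(N : ℤ)) N)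

lemma mem_box {N : ℕ} {X : Fin 3 → ℤ} : X ∈ box N ↔ ∀ i, |X i| ≤ N := by
  simp [box, Fintype.mem_piFinset, abs_le]

lemma mem_box' {N : ℕ} {X : Fin 3 → ℤ} : X ∈ box N ↔ nrm X ≤ N := by
  rw [mem_box]
  constructor
  · intro h
    have h0 := h 0; have h1 := h 1; have h2 := h 2
    rw [abs_le] at h0 h1 h2
    unfold nrm
    omega
  · intro h i
    unfold nrm at h
    rw [abs_le]
    have : i = 0 ∨ i = 1 ∨ i = 2 := by fin_cases i <;> simp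
    rcases this with rfl | rfl | rfl <;> omega

lemma card_box (N : ℕ) : (box N).card = (2 * N + 1) ^ 3 := by
  simp [box, Fintype.card_piFinset]
  omega

lemma abs_le_nrm (W : Fin 3 → ℤ) (i : Fin 3) : |W i| ≤ nrm W :=
  (mem_box.1 (mem_box'.2 le_rfl)) i

lemma nrm_eq_zero {W : Fin 3 → ℤ} : nrm W = 0 ↔ W = 0 := by
  rw [vec3_eq_zero]; unfold nrm; omega

lemma exists_nrm (W : Fin 3 → ℤ) : ∃ i, (W i).natAbs = nrm W := by
  unfold nrm
  rcases le_total (W 0).natAbs (max (W 1).natAbs (W 2).natAbs) with h | h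
  · rcases le_total (W 1).natAbs (W 2).natAbs with h' | h'
    · exact ⟨2, by omega⟩
    · exact ⟨1, by omega⟩
  · exact ⟨0, by omega⟩

def Prim (W : Fin 3 → ℤ) : Prop := ∃ a : Fin 3 → ℤ, dot a W = 1

lemma Prim.ne_zero {W : Fin 3 → ℤ} (h : Prim W) : W ≠ 0 := by
  rintro rfl
  obtain ⟨a, ha⟩ := h
  simp [dot] at ha

lemma exists_prim {W : Fin 3 → ℤ} (hW : W ≠ 0) :
    ∃ (W0 : Fin 3 → ℤ) (k : ℤ), Prim W0 ∧ k ≠ 0 ∧ ∀ i, W i = k * W0 i := by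
  set d : ℤ := ((Int.gcd (Int.gcd (W 0) (W 1) : ℤ) (W 2) : ℕ) : ℤ) with hd
  have h0 : d ∣ W 0 := (Int.gcd_dvd_left _ _).trans (Int.gcd_dvd_left _ _)
  have h1 : d ∣ W 1 := (Int.gcd_dvd_left _ _).trans (Int.gcd_dvd_right _ _)
  have h2 : d ∣ W 2 := Int.gcd_dvd_right _ _
  obtain ⟨a0, ha0⟩ := h0
  obtain ⟨a1, ha1⟩ := h1
  obtain ⟨a2, ha2⟩ := h2
  have hd0 : d ≠ 0 := by
    intro h
    apply hW
    rw [vec3_eq_zero]
    rw [h] at ha0 ha1 ha2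
    simp [ha0, ha1, ha2]
  have e1 := Int.gcd_eq_gcd_ab (Int.gcd (W 0) (W 1) : ℤ) (W 2)
  have e2 := Int.gcd_eq_gcd_ab (W 0) (W 1)
  rw [← hd] at e1
  refine ⟨![a0, a1, a2], d, ⟨![Int.gcdA (W 0) (W 1) * Int.gcdA (Int.gcd (W 0) (W 1) : ℤ) (W 2),
    Int.gcdB (W 0) (W 1) * Int.gcdA (Int.gcd (W 0) (W 1) : ℤ) (W 2),
    Int.gcdB (Int.gcd (W 0) (W 1) : ℤ) (W 2)], ?_⟩, hd0, ?_⟩
  · apply mul_left_cancel₀ hd0
    simp only [dot, Matrix.cons_val_zero, Matrix.cons_val_one, Matrix.cons_val]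
    generalize Int.gcdA (Int.gcd (W 0) (W 1) : ℤ) (W 2) = s at *
    generalize Int.gcdB (Int.gcd (W 0) (W 1) : ℤ) (W 2) = t at *
    generalize Int.gcdA (W 0) (W 1) = s' at *
    generalize Int.gcdB (W 0) (W 1) = t' at *
    generalize ((Int.gcd (W 0) (W 1) : ℕ) : ℤ) = g at *
    linear_combination (-1 : ℤ) * e1 - s * e2 - s * s' * ha0 - s * t' * ha1 - t * ha2
  · intro i
    fin_cases i <;> simpa

end Vale.Agent.P036
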