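import Vale.Agent.P036.Lattice

/-! Counting integer matrices with given determinant or given relation. -/

namespace Vale.Agent.P036

open Finset

abbrev V3 := Fin 3 → ℤ

noncomputable def sig (H : ℕ) : ℝ := ∑ W ∈ box H, 1 / (nrm W : ℝ) ^ 3

lemma box_mono {a b : ℕ} (h : a ≤ b) : box a ⊆ box b := by
  intro X hX
  rw [mem_box'] at *
  omega

lemma sig_nonneg (H : ℕ) : 0 ≤ sig H := sum_nonneg fun _ _ => by positivity

lemma sig_le_harmonic (H : ℕ) : sig H ≤ 26 * (harmonic H : ℝ) := by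
  induction H with
  | zero =>
    simp only [sig, harmonic_zero]
    rw [Finset.sum_eq_zero]
    · simp
    · intro W hW
      rw [mem_box'] at hW
      have : nrm W = 0 := by omega
      simp [this]
  | succ H ih =>
    classical
    have hsub : box H ⊆ box (H + 1) := box_mono (Nat.le_succ H)
    have h1 : sig (H + 1) = ∑ W ∈ box (H + 1) \ box H, 1 / (nrm W : ℝ) ^ 3 + sig H := by
      unfold sig
      rw [Finset.sum_sdiff hsub]
    have h2 : ∑ W ∈ box (H + 1) \ box H, 1 / (nrm W : ℝ) ^ 3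
        = ((box (H + 1) \ box H).card : ℝ) * (1 / ((H + 1 : ℕ) : ℝ) ^ 3) := by
      rw [Finset.sum_congr rfl (g := fun _ => 1 / ((H + 1 : ℕ) : ℝ) ^ 3)]
      · simp
      · intro W hW
        rw [mem_sdiff, mem_box', mem_box'] at hW
        have : nrm W = H + 1 := by omega
        rw [this]
    have h3 : ((box (H + 1) \ box H).card : ℝ) = 24 * ((H : ℝ) + 1) ^ 2 + 2 := by
      have := Finset.card_sdiff_add_card_eq_card hsub
      rw [card_box, card_box] at this
      have h' : (((box (H + 1) \ box H).card : ℕ) : ℝ) + (2 * H + 1) ^ 3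
          = (2 * (H + 1) + 1) ^ 3 := by exact_mod_cast this
      linear_combination h'
    rw [h1, h2, h3, harmonic_succ]
    push_cast
    have hp : (0 : ℝ) < (H : ℝ) + 1 := by positivity
    have h4 : (24 * ((H : ℝ) + 1) ^ 2 + 2) * (1 / ((H : ℝ) + 1) ^ 3) ≤ 26 * ((H : ℝ) + 1)⁻¹ := by
      rw [mul_one_div, div_le_iff₀ (by positivity)]
      have : 26 * ((H : ℝ) + 1)⁻¹ * ((H : ℝ) + 1) ^ 3 = 26 * ((H : ℝ) + 1) ^ 2 := by
        field_simp
      rw [this]
      have : (0 : ℝ) ≤ H := by positivity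
      nlinarith
    linarith

lemma sig_le (H : ℕ) : sig H ≤ 26 * (1 + Real.log H) := by
  have := harmonic_le_one_add_log H
  have := sig_le_harmonic H
  linarith

lemma card_lattice3' {W : Fin 3 → ℤ} (hW : Prim W) (N : ℕ) {x y : Fin 3 → ℤ}
    (hx : dot W x = 0) (hy : dot W y = 0) (hxN : x ∈ box N) (hyN : y ∈ box N)
    (hxy : cross x y ≠ 0) (T : Finset (Fin 3 → ℤ)) (hT : ∀ t ∈ T, dot W t = 0 ∧ t ∈ box N) :
    (T.card : ℝ) ≤ 18 * N ^ 2 / nrm W := by
  have h := card_lattice3 hW N hx hy hxN hyN hxy T hT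
  have h0 : nrm W ≠ 0 := fun h => hW.ne_zero (nrm_eq_zero.1 h)
  rw [le_div_iff₀ (by positivity)]
  exact_mod_cast h

lemma nrm_le_of_prim {W : Fin 3 → ℤ} (hW : Prim W) (N : ℕ) {x y : Fin 3 → ℤ}
    (hx : dot W x = 0) (hy : dot W y = 0) (hxN : x ∈ box N) (hyN : y ∈ box N)
    (hxy : cross x y ≠ 0) : W ∈ box (18 * N ^ 2) := by
  have h := card_lattice3 hW N hx hy hxN hyN hxy {x} (by simp [hx, hxN])
  rw [mem_box']
  simpa using h

lemma prim_cross {U V : V3} (h : cross U V ≠ 0) :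
    ∃ (W : V3) (k : ℤ), Prim W ∧ k ≠ 0 ∧ dot W U = 0 ∧ dot W V = 0 ∧
      ∀ Z, det3 U V Z = k * dot W Z := by
  obtain ⟨W, k, hW, hk, he⟩ := exists_prim h
  have h0 := he 0; have h1 := he 1; have h2 := he 2
  simp only [cross_0, cross_1, cross_2] at h0 h1 h2
  refine ⟨W, k, hW, hk, ?_, ?_, ?_⟩
  · apply mul_left_cancel₀ hk
    simp only [dot]
    linear_combination (-U 0) * h0 - U 1 * h1 - U 2 * h2
  · apply mul_left_cancel₀ hk
    simp only [dot]
    linear_combination (-V 0) * h0 - V 1 * h1 - V 2 * h2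
  · intro Z
    simp only [det3_eq, dot]
    linear_combination Z 0 * h0 + Z 1 * h1 + Z 2 * h2

lemma card_le_real_mul {α β : Type*} [DecidableEq β] (s : Finset α) (f : α → β) (t : Finset β)
    (hf : ∀ a ∈ s, f a ∈ t) (c : ℝ) (hc : ∀ b ∈ t, ((s.filter (fun a => f a = b)).card : ℝ) ≤ c) :
    (s.card : ℝ) ≤ t.card * c := by
  rw [Finset.card_eq_sum_card_fiberwise hf]
  push_cast
  calc ∑ b ∈ t, ((s.filter (fun a => f a = b)).card : ℝ) ≤ ∑ b ∈ t, c := sum_le_sum hc
    _ = t.card * c := by simp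

lemma count_triples (J N : ℕ) (hJ : J ≤ 2 * N) (a : ℤ) (S : Finset (V3 × V3 × V3))
    (hS : ∀ t ∈ S, t.1 ∈ box J ∧ t.2.1 ∈ box J ∧ t.2.2 ∈ box N ∧ cross t.1 t.2.1 ≠ 0 ∧
      det3 t.1 t.2.1 t.2.2 = a) :
    (S.card : ℝ) ≤ 23328 * J ^ 4 * N ^ 2 * sig (18 * J ^ 2) := by
  classical
  let pW : V3 × V3 × V3 → V3 := fun t =>
    if h : cross t.1 t.2.1 ≠ 0 then (prim_cross h).choose else 0
  have hpW : ∀ t ∈ S, ∃ k : ℤ, Prim (pW t) ∧ k ≠ 0 ∧ dot (pW t) t.1 = 0 ∧ dot (pW t) t.2.1 = 0 ∧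
      ∀ Z, det3 t.1 t.2.1 Z = k * dot (pW t) Z := by
    intro t ht
    have h := (hS t ht).2.2.2.1
    simp only [pW, dif_pos h]
    exact (prim_cross h).choose_spec
  have hmaps : ∀ t ∈ S, pW t ∈ box (18 * J ^ 2) := by
    intro t ht
    obtain ⟨k, h1, h2, h3, h4, h5⟩ := hpW t ht
    obtain ⟨g1, g2, g3, g4, g5⟩ := hS t ht
    exact nrm_le_of_prim h1 J h3 h4 g1 g2 g4
  rw [Finset.card_eq_sum_card_fiberwise hmaps, sig, Finset.mul_sum]
  push_cast
  apply sum_le_sum
  intro W _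
  rcases (S.filter (fun t => pW t = W)).eq_empty_or_nonempty with he | ⟨t0, ht0⟩
  · rw [he]; simp; positivity
  rw [mem_filter] at ht0
  obtain ⟨k0, h1, h2, h3, h4, h5⟩ := hpW t0 ht0.1
  obtain ⟨g1, g2, g3, g4, g5⟩ := hS t0 ht0.1
  rw [ht0.2] at h1 h3 h4
  let A := (box J).filter (fun x => dot W x = 0)
  have hA : (A.card : ℝ) ≤ 18 * J ^ 2 / nrm W :=
    card_lattice3' h1 J h3 h4 g1 g2 g4 A (fun t ht => by
      simp only [A, mem_filter] at ht; exact ⟨ht.2, ht.1⟩)
  have h0 : nrm W ≠ 0 := fun h => h1.ne_zero (nrm_eq_zero.1 h)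
  have key := card_le_real_mul (S.filter (fun t => pW t = W)) (fun t => (t.1, t.2.1)) (A ×ˢ A) ?_
    (18 * ((2 * N : ℕ) : ℝ) ^ 2 / nrm W) ?_
  · rw [card_product] at key
    push_cast at key
    calc _ ≤ _ := key
      _ ≤ (18 * (J : ℝ) ^ 2 / nrm W) * (18 * (J : ℝ) ^ 2 / nrm W) *
          (18 * (2 * (N : ℝ)) ^ 2 / nrm W) := by
        apply mul_le_mul_of_nonneg_right _ (by positivity)
        exact mul_le_mul hA hA (Nat.cast_nonneg _) (by positivity)
      _ = _ := by field_simp; ring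
  · intro t ht
    rw [mem_filter] at ht
    obtain ⟨k, i1, i2, i3, i4, i5⟩ := hpW t ht.1
    obtain ⟨j1, j2, j3, j4, j5⟩ := hS t ht.1
    rw [ht.2] at i3 i4
    simp only [A, mem_product, mem_filter]
    exact ⟨⟨j1, i3⟩, j2, i4⟩
  · rintro ⟨U, V⟩ _
    set F := (S.filter (fun t => pW t = W)).filter (fun t => (t.1, t.2.1) = (U, V)) with hF
    rcases F.eq_empty_or_nonempty with he | ⟨t1, ht1⟩
    · rw [he]; simp; positivity
    have hmem : ∀ t ∈ F, t ∈ S ∧ pW t = W ∧ t.1 = U ∧ t.2.1 = V := by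
      intro t ht
      simp only [hF, mem_filter, Prod.mk.injEq] at ht
      tauto
    have hc : F.card = (F.image (fun t => t.2.2 - t1.2.2)).card := by
      rw [card_image_of_injOn]
      intro s hs t ht hst
      obtain ⟨-, -, a1, a2⟩ := hmem s hs
      obtain ⟨-, -, b1, b2⟩ := hmem t ht
      have : s.2.2 = t.2.2 := by simpa using hst
      ext1
      · rw [a1, b1]
      · ext1
        · rw [a2, b2]
        · exact this
    rw [hc]
    apply card_lattice3' h1 (2 * N) h3 h4 (box_mono hJ g1) (box_mono hJ g2) g4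
    intro z hz
    obtain ⟨t, ht, rfl⟩ := mem_image.1 hz
    obtain ⟨a0, a1, a2, a3⟩ := hmem t ht
    obtain ⟨b0, b1, b2, b3⟩ := hmem t1 ht1
    obtain ⟨k, i1, i2, i3, i4, i5⟩ := hpW t a0
    obtain ⟨j1, j2, j3, j4, j5⟩ := hS t a0
    obtain ⟨l1, l2, l3, l4, l5⟩ := hS t1 b0
    constructor
    · rw [b2, b3, ← a2, ← a3, i5, a1] at l5
      rw [i5, a1] at j5
      apply mul_left_cancel₀ i2
      simp only [dot, Pi.sub_apply] at *
      linear_combination j5 - l5
    · rw [mem_box] at *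
      intro i
      have := j3 i; have := l3 i
      simp only [Pi.sub_apply]
      rw [abs_le] at *
      push_cast
      constructor <;> linarith

lemma sum_cong (H Q : ℕ) (hQ : 0 < Q) (vb : Fin 3 → ZMod Q) (S : Finset V3)
    (hS : ∀ v ∈ S, v ∈ box H ∧ (∀ i, (v i : ZMod Q) = vb i) ∧ Q ≤ 3 * nrm v) :
    ∑ v ∈ S, 1 / (nrm v : ℝ) ^ 3 ≤ (27 + 8 * sig H) / (Q : ℝ) ^ 3 := by
  classical
  have : NeZero Q := ⟨hQ.ne'⟩
  let v0 : V3 := fun i => (vb i).valMinAbs
  have hv0 : ∀ i, 2 * (v0 i).natAbs ≤ Q := fun i => by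
    have := ZMod.natAbs_valMinAbs_le (vb i)
    simp only [v0]; omega
  let u : V3 → V3 := fun v i => (v i - v0 i) / Q
  have hu : ∀ v ∈ S, ∀ i, v i = v0 i + Q * u v i := by
    intro v hv i
    have h1 : ((v i - v0 i : ℤ) : ZMod Q) = 0 := by
      push_cast
      rw [(hS v hv).2.1 i]; simp [v0]
    rw [ZMod.intCast_zmod_eq_zero_iff_dvd] at h1
    simp only [u]
    rw [Int.mul_ediv_cancel' h1]; ring
  have hQr : (0 : ℝ) < Q := by exact_mod_cast hQ
  have hlow : ∀ v ∈ S, Q * nrm (u v) ≤ 2 * nrm v := by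
    intro v hv
    obtain ⟨i, hi⟩ := exists_nrm (u v)
    rcases Nat.eq_zero_or_pos (nrm (u v)) with h0 | h0
    · rw [h0]; simp
    have e := hu v hv i
    have h1 := hv0 i
    have h2 := abs_le_nrm v i
    have h3 : (Q * (u v i).natAbs : ℤ) ≤ |v i| + |v0 i| := by
      have : (Q : ℤ) * u v i = v i - v0 i := by linarith
      calc (Q * (u v i).natAbs : ℤ) = |(Q : ℤ) * u v i| := by
            rw [abs_mul, Int.abs_eq_natAbs (u v i)]; simp
        _ = |v i - v0 i| := by rw [this]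
        _ ≤ _ := abs_sub _ _
    rw [hi] at h3
    have h4 : 2 * |v0 i| ≤ Q := by rw [Int.abs_eq_natAbs]; exact_mod_cast h1
    have h5 : (Q : ℤ) ≤ Q * (nrm (u v) : ℕ) := by
      have : (1 : ℤ) ≤ (nrm (u v) : ℕ) := by exact_mod_cast h0
      nlinarith
    have : (Q * (nrm (u v) : ℕ) : ℤ) ≤ 2 * (nrm v : ℕ) := by linarith
    exact_mod_cast this
  have hbox : ∀ v ∈ S, u v ∈ box H := by
    intro v hv
    rw [mem_box]
    intro i
    have e := hu v hv i
    have h1 := hv0 i
    have h2 := mem_box.1 (hS v hv).1 i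
    have h4 : 2 * |v0 i| ≤ Q := by rw [Int.abs_eq_natAbs]; exact_mod_cast h1
    have h3 : (Q : ℤ) * |u v i| ≤ |v i| + |v0 i| := by
      have : (Q : ℤ) * u v i = v i - v0 i := by linarith
      calc (Q : ℤ) * |u v i| = |(Q : ℤ) * u v i| := by rw [abs_mul]; simp
        _ = |v i - v0 i| := by rw [this]
        _ ≤ _ := abs_sub _ _
    by_contra hlt
    push Not at hlt
    have hQz : (1 : ℤ) ≤ Q := by exact_mod_cast hQ
    have h6 : (H : ℤ) + 1 ≤ |u v i| := hlt
    have h7 : (0 : ℤ) ≤ H := by positivity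
    nlinarith
  have hinj : Set.InjOn u S := by
    intro s hs t ht hst
    funext i
    rw [hu s hs i, hu t ht i, hst]
  let w : V3 → ℝ := fun z => (if z = 0 then 27 else 0) / (Q : ℝ) ^ 3 +
    8 / (Q : ℝ) ^ 3 * (1 / (nrm z : ℝ) ^ 3)
  calc ∑ v ∈ S, 1 / (nrm v : ℝ) ^ 3 ≤ ∑ v ∈ S, w (u v) := by
        apply sum_le_sum
        intro v hv
        have h1 := (hS v hv).2.2
        have h2 := hlow v hv
        have hv1 : (0 : ℝ) < nrm v := by
          have : 0 < nrm v := by omega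
          exact_mod_cast this
        by_cases h0 : u v = 0
        · simp only [w, h0, if_true]
          have : nrm (0 : V3) = 0 := nrm_eq_zero.2 rfl
          rw [this]
          simp only [Nat.cast_zero, ne_eq, OfNat.ofNat_ne_zero, not_false_eq_true, zero_pow,
            div_zero, mul_zero, add_zero]
          rw [div_le_div_iff₀ (by positivity) (by positivity)]
          have : (Q : ℝ) ≤ 3 * nrm v := by exact_mod_cast h1
          calc 1 * (Q : ℝ) ^ 3 ≤ 1 * (3 * nrm v) ^ 3 := by gcongr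
            _ = _ := by ring
        · simp only [w, h0, if_false, zero_div, zero_add]
          have hn : (0 : ℝ) < nrm (u v) := by
            have : nrm (u v) ≠ 0 := fun h => h0 (nrm_eq_zero.1 h)
            positivity
          rw [div_mul_div_comm, div_le_div_iff₀ (by positivity) (by positivity)]
          have : (Q : ℝ) * nrm (u v) ≤ 2 * nrm v := by exact_mod_cast h2
          calc 1 * ((Q : ℝ) ^ 3 * (nrm (u v) : ℝ) ^ 3) = ((Q : ℝ) * nrm (u v)) ^ 3 := by ring
            _ ≤ (2 * (nrm v : ℝ)) ^ 3 := by gcongr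
            _ = _ := by ring
    _ = ∑ z ∈ S.image u, w z := (sum_image hinj).symm
    _ ≤ ∑ z ∈ box H, w z := by
        apply sum_le_sum_of_subset_of_nonneg
        · intro z hz
          obtain ⟨v, hv, rfl⟩ := mem_image.1 hz
          exact hbox v hv
        · intro z _ _
          simp only [w]
          split_ifs <;> positivity
    _ ≤ _ := by
        simp only [w]
        rw [sum_add_distrib, ← Finset.mul_sum, ← Finset.sum_div, add_div]
        have : ∑ z ∈ box H, (if z = 0 then (27 : ℝ) else 0) ≤ 27 := by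
          rw [Finset.sum_ite_eq']
          split_ifs <;> norm_num
        unfold sig
        gcongr
        apply le_of_eq; ring

lemma count_rel (N Q : ℕ) (hQ : 0 < Q) (vb : Fin 3 → ZMod Q) (S : Finset (V3 × V3 × V3))
    (hS : ∀ t ∈ S, t.1 ∈ box N ∧ t.2.1 ∈ box N ∧ t.2.2 ∈ box N ∧ cross t.1 t.2.1 ≠ 0 ∧
      ∃ v : V3, Prim v ∧ (∀ i, (v i : ZMod Q) = vb i) ∧ Q ≤ 3 * nrm v ∧
        ∀ i, v 0 * t.1 i + v 1 * t.2.1 i + v 2 * t.2.2 i = 0) :
    (S.card : ℝ) ≤ (18 * N ^ 2) ^ 3 * ((27 + 8 * sig (18 * N ^ 2)) / (Q : ℝ) ^ 3) := by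
  classical
  let P : V3 × V3 × V3 → V3 → Prop := fun t v => Prim v ∧ (∀ i, (v i : ZMod Q) = vb i) ∧
    Q ≤ 3 * nrm v ∧ ∀ i, v 0 * t.1 i + v 1 * t.2.1 i + v 2 * t.2.2 i = 0
  let pv : V3 × V3 × V3 → V3 := fun t => if h : ∃ v, P t v then h.choose else 0
  have hpv : ∀ t ∈ S, P t (pv t) := by
    intro t ht
    have h : ∃ v, P t v := (hS t ht).2.2.2.2
    simp only [pv, dif_pos h]
    exact h.choose_spec
  let row : V3 × V3 × V3 → Fin 3 → V3 := fun t i => ![t.1 i, t.2.1 i, t.2.2 i]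
  have hrow : ∀ t ∈ S, ∀ i, dot (pv t) (row t i) = 0 ∧ row t i ∈ box N := by
    intro t ht i
    obtain ⟨g1, g2, g3, -, -⟩ := hS t ht
    refine ⟨by simpa [dot, row] using (hpv t ht).2.2.2 i, ?_⟩
    rw [mem_box] at *
    intro k
    fin_cases k
    · exact g1 i
    · exact g2 i
    · exact g3 i
  have hind : ∀ t ∈ S, ∃ a b, cross (row t a) (row t b) ≠ 0 := by
    intro t ht
    have h := (hS t ht).2.2.2.1
    by_contra hcon
    push Not at hcon
    apply h
    have h1 := congrFun (hcon 1 2) 2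
    have h2 := congrFun (hcon 2 0) 2
    have h3 := congrFun (hcon 0 1) 2
    simp only [row, cross_2, Matrix.cons_val_zero, Matrix.cons_val_one, Pi.zero_apply] at h1 h2 h3
    rw [vec3_eq_zero]
    simp only [cross_0, cross_1, cross_2]
    refine ⟨by linarith, by linarith, by linarith⟩
  have hmaps : ∀ t ∈ S, pv t ∈ S.image pv := fun t ht => mem_image_of_mem _ ht
  rw [Finset.card_eq_sum_card_fiberwise hmaps]
  push_cast
  calc _ ≤ ∑ v ∈ S.image pv, (18 * (N : ℝ) ^ 2) ^ 3 * (1 / (nrm v : ℝ) ^ 3) := by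
        apply sum_le_sum
        intro v hv
        obtain ⟨t0, ht0, rfl⟩ := mem_image.1 hv
        obtain ⟨a, b, hab⟩ := hind t0 ht0
        let A := (box N).filter (fun x => dot (pv t0) x = 0)
        have hA : (A.card : ℝ) ≤ 18 * N ^ 2 / nrm (pv t0) :=
          card_lattice3' (hpv t0 ht0).1 N (hrow t0 ht0 a).1 (hrow t0 ht0 b).1 (hrow t0 ht0 a).2
            (hrow t0 ht0 b).2 hab A (fun t ht => by
              simp only [A, mem_filter] at ht; exact ⟨ht.2, ht.1⟩)
        have h1 : (S.filter (fun t => pv t = pv t0)).card ≤ (A ×ˢ A ×ˢ A).card := by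
          apply card_le_card_of_injOn (fun t => (row t 0, row t 1, row t 2))
          · intro t ht
            simp only [coe_filter, Set.mem_ofPred_eq] at ht
            have h0 := hrow t ht.1 0
            have h1 := hrow t ht.1 1
            have h2 := hrow t ht.1 2
            rw [ht.2] at h0 h1 h2
            simp only [A, coe_product, coe_filter, Set.mem_prod, Set.mem_ofPred_eq]
            tauto
          · intro s _ t _ hst
            simp only [row, Prod.mk.injEq, vec3_ext, Matrix.cons_val_zero, Matrix.cons_val_one,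
              Matrix.cons_val] at hst
            ext1
            · rw [vec3_ext]; tauto
            · ext1 <;> rw [vec3_ext] <;> tauto
        rw [card_product, card_product] at h1
        have h2 : ((S.filter (fun t => pv t = pv t0)).card : ℝ) ≤ A.card * (A.card * A.card) := by
          exact_mod_cast h1
        calc _ ≤ _ := h2
          _ ≤ (18 * (N : ℝ) ^ 2 / nrm (pv t0)) * ((18 * (N : ℝ) ^ 2 / nrm (pv t0)) *
              (18 * (N : ℝ) ^ 2 / nrm (pv t0))) :=
            mul_le_mul hA (mul_le_mul hA hA (Nat.cast_nonneg _) (by positivity))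
              (mul_nonneg (Nat.cast_nonneg _) (Nat.cast_nonneg _)) (by positivity)
          _ = _ := by ring
    _ ≤ _ := by
        rw [← Finset.mul_sum]
        gcongr
        apply sum_cong _ Q hQ vb
        intro v hv
        obtain ⟨t0, ht0, rfl⟩ := mem_image.1 hv
        obtain ⟨a, b, hab⟩ := hind t0 ht0
        exact ⟨nrm_le_of_prim (hpv t0 ht0).1 N (hrow t0 ht0 a).1 (hrow t0 ht0 b).1
          (hrow t0 ht0 a).2 (hrow t0 ht0 b).2 hab, (hpv t0 ht0).2.1, (hpv t0 ht0).2.2.1⟩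

end Vale.Agent.P036
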