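import Mathlib

namespace Vale.Agent.P036

/-- Area of the triangle `p q r` in the plane. -/
noncomputable def area (p q r : ℝ × ℝ) : ℝ :=
  |(q.1 - p.1) * (r.2 - p.2) - (q.2 - p.2) * (r.1 - p.1)| / 2

/-- The least area of a triangle spanned by three distinct points of `P`. -/
noncomputable def minArea (P : Finset (ℝ × ℝ)) : ℝ :=
  sInf {a : ℝ | ∃ p ∈ P, ∃ q ∈ P, ∃ r ∈ P, p ≠ q ∧ p ≠ r ∧ q ≠ r ∧ a = area p q r}

/-- Heilbronn's function: the largest value of `minArea` over `n`-point subsets of the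
unit square. -/
noncomputable def heilbronn (n : ℕ) : ℝ :=
  sSup {a : ℝ | ∃ P : Finset (ℝ × ℝ),
    (∀ p ∈ P, p.1 ∈ Set.Icc (0 : ℝ) 1 ∧ p.2 ∈ Set.Icc (0 : ℝ) 1) ∧ P.card = n ∧ a = minArea P}

end Vale.Agent.P036
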