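import Vale.Agent.P036.Basic

/-! Counting over finite fields: paraboloids and matrices of determinant one. -/

namespace Vale.Agent.P036

open Finset

set_option linter.unusedSectionVars false

variable {F : Type*} [Field F] [Fintype F] [DecidableEq F]

/-- the point `X` lies on the paraboloid with parameters `θ` -/
def sel (ν : F) (θ : Fin 4 → F) (X : Fin 3 → F) : Prop :=
  θ 0 ≠ 0 ∧ X 2 = θ 0 * (X 0 ^ 2 - ν * X 1 ^ 2) + θ 1 * X 0 + θ 2 * X 1 + θ 3

instance (ν : F) (θ : Fin 4 → F) (X : Fin 3 → F) : Decidable (sel ν θ X) := by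
  unfold sel; infer_instance

lemma vec4_ext {α : Type*} {a b : Fin 4 → α} :
    a = b ↔ a 0 = b 0 ∧ a 1 = b 1 ∧ a 2 = b 2 ∧ a 3 = b 3 := by
  constructor
  · rintro rfl; simp
  · rintro ⟨h0, h1, h2, h3⟩
    funext i; fin_cases i <;> simpa

lemma card_sel1 (ν : F) (X : Fin 3 → F) :
    (univ.filter (fun θ : Fin 4 → F => sel ν θ X)).card =
      (Fintype.card F - 1) * Fintype.card F ^ 2 := by
  have : (univ.filter (fun θ : Fin 4 → F => sel ν θ X)).card =
      ((univ.erase (0 : F)) ×ˢ (univ : Finset F) ×ˢ (univ : Finset F)).card := by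
    refine card_bij' (fun θ _ => (θ 0, θ 1, θ 2))
      (fun s _ => ![s.1, s.2.1, s.2.2,
        X 2 - (s.1 * (X 0 ^ 2 - ν * X 1 ^ 2) + s.2.1 * X 0 + s.2.2 * X 1)]) ?_ ?_ ?_ ?_
    · intro θ hθ
      simp only [mem_filter, mem_univ, true_and] at hθ
      simpa using hθ.1
    · intro s hs
      simp only [mem_product, mem_erase, mem_univ, and_true] at hs
      simp only [mem_filter, mem_univ, true_and]
      simp [sel, hs]
    · intro θ hθ
      simp only [mem_filter, mem_univ, true_and] at hθ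
      rw [vec4_ext]
      simp only [Matrix.cons_val_zero, Matrix.cons_val_one, Matrix.cons_val, true_and]
      linear_combination hθ.2
    · intro s hs
      simp
  rw [this, card_product, card_product, card_erase_of_mem (mem_univ _), card_univ]
  ring

lemma aniso {ν : F} (hν : ¬ IsSquare ν) {a b : F} (h : a ^ 2 - ν * b ^ 2 = 0) : a = 0 ∧ b = 0 := by
  by_cases hb : b = 0
  · subst hb
    simp at h
    exact ⟨h, rfl⟩
  · exfalso; apply hν
    refine ⟨a / b, ?_⟩
    field_simp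
    linear_combination -h

lemma sel_proj {ν : F} {θ : Fin 4 → F} {X Y : Fin 3 → F} (hX : sel ν θ X) (hY : sel ν θ Y)
    (h : X ≠ Y) : X 0 ≠ Y 0 ∨ X 1 ≠ Y 1 := by
  by_contra hc
  push Not at hc
  apply h
  rw [vec3_ext]
  refine ⟨hc.1, hc.2, ?_⟩
  rw [hX.2, hY.2, hc.1, hc.2]

lemma card_sel2 (ν : F) {X Y : Fin 3 → F} (h : X ≠ Y) :
    (univ.filter (fun θ : Fin 4 → F => sel ν θ X ∧ sel ν θ Y)).card ≤ Fintype.card F ^ 2 := by
  rcases (univ.filter (fun θ : Fin 4 → F => sel ν θ X ∧ sel ν θ Y)).eq_empty_or_nonempty with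
    he | ⟨θ0, hθ0⟩
  · rw [he]; simp
  simp only [mem_filter, mem_univ, true_and] at hθ0
  have hc : Fintype.card F ^ 2 = (univ : Finset (F × F)).card := by simp [sq]
  rw [hc]
  rcases sel_proj hθ0.1 hθ0.2 h with h1 | h1
  · apply card_le_card_of_injOn (fun θ => (θ 0, θ 2)) (by simp)
    intro θ hθ θ' hθ' he
    simp only [coe_filter, mem_univ, true_and, Set.mem_ofPred_eq] at hθ hθ'
    simp only [Prod.mk.injEq] at he
    obtain ⟨⟨-, a1⟩, -, a2⟩ := hθ
    obtain ⟨⟨-, b1⟩, -, b2⟩ := hθ'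
    rw [he.1, he.2] at a1 a2
    have e1 : θ 1 = θ' 1 := by
      apply mul_left_cancel₀ (sub_ne_zero.2 h1)
      linear_combination b1 - a1 - b2 + a2
    rw [vec4_ext]
    refine ⟨he.1, e1, he.2, ?_⟩
    rw [e1] at a1
    linear_combination b1 - a1
  · apply card_le_card_of_injOn (fun θ => (θ 0, θ 1)) (by simp)
    intro θ hθ θ' hθ' he
    simp only [coe_filter, mem_univ, true_and, Set.mem_ofPred_eq] at hθ hθ'
    simp only [Prod.mk.injEq] at he
    obtain ⟨⟨-, a1⟩, -, a2⟩ := hθ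
    obtain ⟨⟨-, b1⟩, -, b2⟩ := hθ'
    rw [he.1, he.2] at a1 a2
    have e1 : θ 2 = θ' 2 := by
      apply mul_left_cancel₀ (sub_ne_zero.2 h1)
      linear_combination b1 - a1 - b2 + a2
    rw [vec4_ext]
    refine ⟨he.1, he.2, e1, ?_⟩
    rw [e1] at a1
    linear_combination b1 - a1

/-- three points with distinct projections on an elliptic paraboloid are affinely independent -/
lemma cap {ν : F} (hν : ¬ IsSquare ν) {x0 x1 y0 y1 z0 z1 a b c : F}
    (hxy : x0 ≠ y0 ∨ x1 ≠ y1) (hxz : x0 ≠ z0 ∨ x1 ≠ z1) (hyz : y0 ≠ z0 ∨ y1 ≠ z1)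
    (h1 : a + b + c = 0) (h2 : a * x0 + b * y0 + c * z0 = 0) (h3 : a * x1 + b * y1 + c * z1 = 0)
    (h4 : a * (x0 ^ 2 - ν * x1 ^ 2) + b * (y0 ^ 2 - ν * y1 ^ 2) + c * (z0 ^ 2 - ν * z1 ^ 2) = 0) :
    a = 0 ∧ b = 0 ∧ c = 0 := by
  have hc : c = -a - b := by linear_combination h1
  subst hc
  have e1 : a * (x0 - z0) + b * (y0 - z0) = 0 := by linear_combination h2
  have e2 : a * (x1 - z1) + b * (y1 - z1) = 0 := by linear_combination h3
  have e3 : a * ((x0 - z0) ^ 2 - ν * (x1 - z1) ^ 2) + b * ((y0 - z0) ^ 2 - ν * (y1 - z1) ^ 2) = 0 := by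
    linear_combination h4 - 2 * z0 * h2 + 2 * ν * z1 * h3
  have hq : (y0 - z0) ^ 2 - ν * (y1 - z1) ^ 2 ≠ 0 := by
    intro h
    obtain ⟨g1, g2⟩ := aniso hν h
    rcases hyz with g | g
    · exact g (by linear_combination g1)
    · exact g (by linear_combination g2)
  have e4 : b * (a + b) * ((y0 - z0) ^ 2 - ν * (y1 - z1) ^ 2) = 0 := by
    linear_combination a * e3 - (a * (x0 - z0) - b * (y0 - z0)) * e1
      + ν * (a * (x1 - z1) - b * (y1 - z1)) * e2
  have e5 : b = 0 ∨ a + b = 0 := by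
    rcases mul_eq_zero.1 e4 with h | h
    · exact mul_eq_zero.1 h
    · exact absurd h hq
  have ha : a = 0 := by
    by_contra ha
    rcases e5 with hb | hb
    · subst hb
      rcases hxz with g | g
      · exact g (by apply mul_left_cancel₀ ha; linear_combination e1)
      · exact g (by apply mul_left_cancel₀ ha; linear_combination e2)
    · have hb' : b = -a := by linear_combination hb
      subst hb'
      rcases hxy with g | g
      · exact g (by apply mul_left_cancel₀ ha; linear_combination e1)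
      · exact g (by apply mul_left_cancel₀ ha; linear_combination e2)
  subst ha
  have hb : b = 0 := by
    rcases e5 with hb | hb
    · exact hb
    · simpa using hb
  subst hb
  simp

lemma sel_rel {ν : F} (hν : ¬ IsSquare ν) {θ : Fin 4 → F} {X Y Z : Fin 3 → F}
    (hX : sel ν θ X) (hY : sel ν θ Y) (hZ : sel ν θ Z) (hXY : X ≠ Y) (hXZ : X ≠ Z) (hYZ : Y ≠ Z)
    {a b c : F} (h1 : a + b + c = 0) (h2 : ∀ i, a * X i + b * Y i + c * Z i = 0) :
    a = 0 ∧ b = 0 ∧ c = 0 := by
  apply cap hν (sel_proj hX hY hXY) (sel_proj hX hZ hXZ) (sel_proj hY hZ hYZ) h1 (h2 0) (h2 1)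
  apply mul_left_cancel₀ hX.1
  linear_combination h2 2 - a * hX.2 - b * hY.2 - c * hZ.2 - θ 1 * h2 0 - θ 2 * h2 1 - θ 3 * h1

lemma card_fiber_le {k n : ℕ} (M : Matrix (Fin k) (Fin n) F) (hM : LinearIndependent F M.row)
    (y : Fin k → F) :
    (univ.filter (fun θ : Fin n → F => M.mulVec θ = y)).card ≤ Fintype.card F ^ (n - k) := by
  classical
  rcases (univ.filter (fun θ : Fin n → F => M.mulVec θ = y)).eq_empty_or_nonempty with
    he | ⟨θ0, hθ0⟩
  · rw [he]; simp
  simp only [mem_filter, mem_univ, true_and] at hθ0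
  have hr : M.rank = k := by simpa using hM.rank_matrix
  have h1 := LinearMap.finrank_range_add_finrank_ker M.mulVecLin
  have h2 : Module.finrank F (LinearMap.range M.mulVecLin) = k := hr
  have h3 : Module.finrank F (LinearMap.ker M.mulVecLin) = n - k := by
    rw [h2] at h1
    simp only [Module.finrank_fintype_fun_eq_card, Fintype.card_fin] at h1
    omega
  have h4 : Fintype.card (LinearMap.ker M.mulVecLin) = Fintype.card F ^ (n - k) := by
    rw [Module.card_eq_pow_finrank (K := F), h3]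
  rw [← h4, ← card_univ]
  apply card_le_card_of_injOn
    (fun θ => if h : M.mulVec θ = y then (⟨θ - θ0, by
      simp [LinearMap.mem_ker, Matrix.mulVec_sub, h, hθ0]⟩ : LinearMap.ker M.mulVecLin) else 0)
    (by simp)
  intro θ hθ θ' hθ' he
  simp only [coe_filter, mem_univ, true_and, Set.mem_ofPred_eq] at hθ hθ'
  simp only [hθ, hθ', dif_pos] at he
  simpa using he

lemma card_sel3 {ν : F} (hν : ¬ IsSquare ν) {X Y Z : Fin 3 → F}
    (hXY : X ≠ Y) (hXZ : X ≠ Z) (hYZ : Y ≠ Z) :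
    (univ.filter (fun θ : Fin 4 → F => sel ν θ X ∧ sel ν θ Y ∧ sel ν θ Z)).card
      ≤ Fintype.card F := by
  rcases (univ.filter (fun θ : Fin 4 → F => sel ν θ X ∧ sel ν θ Y ∧ sel ν θ Z)).eq_empty_or_nonempty
    with he | ⟨θ0, hθ0⟩
  · rw [he]; simp
  simp only [mem_filter, mem_univ, true_and] at hθ0
  let M : Matrix (Fin 3) (Fin 4) F :=
    !![X 0 ^ 2 - ν * X 1 ^ 2, X 0, X 1, 1; Y 0 ^ 2 - ν * Y 1 ^ 2, Y 0, Y 1, 1;
      Z 0 ^ 2 - ν * Z 1 ^ 2, Z 0, Z 1, 1]
  have hM : LinearIndependent F M.row := by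
    rw [Fintype.linearIndependent_iff]
    intro g hg
    have g0 := congrFun hg 0
    have g1 := congrFun hg 1
    have g2 := congrFun hg 2
    have g3 := congrFun hg 3
    simp [M, Fin.sum_univ_three, Matrix.row] at g0 g1 g2 g3
    obtain ⟨a, b, c⟩ := cap hν (sel_proj hθ0.1 hθ0.2.1 hXY) (sel_proj hθ0.1 hθ0.2.2 hXZ)
      (sel_proj hθ0.2.1 hθ0.2.2 hYZ) g3 g1 g2 g0
    intro i
    fin_cases i <;> simpa
  have := card_fiber_le M hM ![X 2, Y 2, Z 2]
  norm_num at this
  refine le_trans (card_le_card ?_) this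
  intro θ hθ
  simp only [mem_filter, mem_univ, true_and] at hθ ⊢
  rw [vec3_ext]
  simp [M, Matrix.mulVec, dotProduct, Fin.sum_univ_four]
  refine ⟨?_, ?_, ?_⟩
  · linear_combination -hθ.1.2
  · linear_combination -hθ.2.1.2
  · linear_combination -hθ.2.2.2

/-! matrices of determinant one -/

def act {R : Type*} [CommRing R] (g : Fin 3 → Fin 3 → R) (w : Fin 3 → R) : Fin 3 → R :=
  fun i => dot (g i) w

def SL (F : Type*) [Field F] [Fintype F] [DecidableEq F] : Finset (Fin 3 → Fin 3 → F) :=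
  univ.filter (fun g => det3 (g 0) (g 1) (g 2) = 1)

lemma mem_SL {g : Fin 3 → Fin 3 → F} : g ∈ SL F ↔ det3 (g 0) (g 1) (g 2) = 1 := by
  unfold SL; rw [mem_filter]; simp

lemma det3_act {R : Type*} [CommRing R] (g : Fin 3 → Fin 3 → R) (a b c : Fin 3 → R) :
    det3 (act g a) (act g b) (act g c) = det3 (g 0) (g 1) (g 2) * det3 a b c := by
  simp only [det3_eq, act, dot]; ring

lemma act_inj {g : Fin 3 → Fin 3 → F} (hg : g ∈ SL F) {a : Fin 3 → F} (h : act g a = 0) :
    a = 0 := by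
  rw [mem_SL, det3_eq] at hg
  rw [vec3_eq_zero] at h ⊢
  simp only [act, dot] at h
  obtain ⟨h0, h1, h2⟩ := h
  refine ⟨?_, ?_, ?_⟩
  · linear_combination (-a 0) * hg + (g 1 1 * g 2 2 - g 1 2 * g 2 1) * h0
      + (g 2 1 * g 0 2 - g 2 2 * g 0 1) * h1 + (g 0 1 * g 1 2 - g 0 2 * g 1 1) * h2
  · linear_combination (-a 1) * hg + (g 1 2 * g 2 0 - g 1 0 * g 2 2) * h0
      + (g 2 2 * g 0 0 - g 2 0 * g 0 2) * h1 + (g 0 2 * g 1 0 - g 0 0 * g 1 2) * h2
  · linear_combination (-a 2) * hg + (g 1 0 * g 2 1 - g 1 1 * g 2 0) * h0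
      + (g 2 0 * g 0 1 - g 2 1 * g 0 0) * h1 + (g 0 0 * g 1 1 - g 0 1 * g 1 0) * h2

lemma dot_eq_of_det {a b c r s : Fin 3 → F} (h : det3 a b c ≠ 0) (ha : dot r a = dot s a)
    (hb : dot r b = dot s b) (hc : dot r c = dot s c) : r = s := by
  simp only [det3_eq, dot] at *
  rw [vec3_ext]
  refine ⟨?_, ?_, ?_⟩ <;> apply mul_left_cancel₀ h
  · linear_combination (b 1 * c 2 - b 2 * c 1) * ha + (c 1 * a 2 - c 2 * a 1) * hb
      + (a 1 * b 2 - a 2 * b 1) * hc
  · linear_combination (b 2 * c 0 - b 0 * c 2) * ha + (c 2 * a 0 - c 0 * a 2) * hb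
      + (a 2 * b 0 - a 0 * b 2) * hc
  · linear_combination (b 0 * c 1 - b 1 * c 0) * ha + (c 0 * a 1 - c 1 * a 0) * hb
      + (a 0 * b 1 - a 1 * b 0) * hc

lemma act_eq_of_det {a b c : Fin 3 → F} (h : det3 a b c ≠ 0) {g g' : Fin 3 → Fin 3 → F}
    (ha : act g a = act g' a) (hb : act g b = act g' b) (hc : act g c = act g' c) : g = g' := by
  funext i
  exact dot_eq_of_det h (congrFun ha i) (congrFun hb i) (congrFun hc i)

lemma card_SL1 {a b c : Fin 3 → F} (h : det3 a b c ≠ 0) (X Y Z : Fin 3 → F) :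
    ((SL F).filter (fun g => act g a = X ∧ act g b = Y ∧ act g c = Z)).card ≤ 1 := by
  rw [card_le_one]
  intro g hg g' hg'
  simp only [mem_filter] at hg hg'
  exact act_eq_of_det h (hg.2.1.trans hg'.2.1.symm) (hg.2.2.1.trans hg'.2.2.1.symm)
    (hg.2.2.2.trans hg'.2.2.2.symm)

lemma card_plane (n : Fin 3 → F) {c : F} (hc : c ≠ 0) :
    (univ.filter (fun Z : Fin 3 → F => dot n Z = c)).card ≤ Fintype.card F ^ 2 := by
  have hcard : Fintype.card F ^ 2 = (univ : Finset (F × F)).card := by simp [sq]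
  rw [hcard]
  by_cases h0 : n 0 = 0
  · by_cases h1 : n 1 = 0
    · by_cases h2 : n 2 = 0
      · rw [filter_eq_empty_iff.2]
        · simp
        · intro Z _
          simp [dot, h0, h1, h2, hc.symm]
      · apply card_le_card_of_injOn (fun Z => (Z 0, Z 1)) (by simp)
        intro Z hZ Z' hZ' he
        simp only [coe_filter, mem_univ, true_and, Set.mem_ofPred_eq] at hZ hZ'; simp only [dot] at hZ hZ'
        simp only [Prod.mk.injEq] at he
        rw [vec3_ext]
        refine ⟨he.1, he.2, mul_left_cancel₀ h2 ?_⟩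
        rw [he.1, he.2] at hZ
        linear_combination hZ - hZ'
    · apply card_le_card_of_injOn (fun Z => (Z 0, Z 2)) (by simp)
      intro Z hZ Z' hZ' he
      simp only [coe_filter, mem_univ, true_and, Set.mem_ofPred_eq] at hZ hZ'; simp only [dot] at hZ hZ'
      simp only [Prod.mk.injEq] at he
      rw [vec3_ext]
      refine ⟨he.1, mul_left_cancel₀ h1 ?_, he.2⟩
      rw [he.1, he.2] at hZ
      linear_combination hZ - hZ'
  · apply card_le_card_of_injOn (fun Z => (Z 1, Z 2)) (by simp)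
    intro Z hZ Z' hZ' he
    simp only [coe_filter, mem_univ, true_and, Set.mem_ofPred_eq] at hZ hZ'; simp only [dot] at hZ hZ'
    simp only [Prod.mk.injEq] at he
    rw [vec3_ext]
    refine ⟨mul_left_cancel₀ h0 ?_, he.1, he.2⟩
    rw [he.1, he.2] at hZ
    linear_combination hZ - hZ'

lemma exists_det_ne {a b : Fin 3 → F} (h : cross a b ≠ 0) : ∃ e, det3 a b e ≠ 0 := by
  by_contra hc
  push Not at hc
  apply h
  have h0 := hc ![1, 0, 0]
  have h1 := hc ![0, 1, 0]
  have h2 := hc ![0, 0, 1]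
  simp [det3, dot] at h0 h1 h2
  rw [vec3_eq_zero]
  exact ⟨h0, h1, h2⟩

lemma exists_cross_ne {a : Fin 3 → F} (h : a ≠ 0) : ∃ e, cross a e ≠ 0 := by
  by_contra hc
  push Not at hc
  apply h
  have h0 := hc ![1, 0, 0]
  have h1 := hc ![0, 1, 0]
  rw [vec3_eq_zero] at h0 h1 ⊢
  simp at h0 h1
  exact ⟨h1.2, h0.2, h0.1⟩

lemma card_SL2 {a b : Fin 3 → F} (h : cross a b ≠ 0) (X Y : Fin 3 → F) :
    ((SL F).filter (fun g => act g a = X ∧ act g b = Y)).card ≤ Fintype.card F ^ 2 := by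
  obtain ⟨e, he⟩ := exists_det_ne h
  refine le_trans ?_ (card_plane (cross X Y) he)
  apply card_le_card_of_injOn (fun g => act g e)
  · intro g hg
    simp only [coe_filter, mem_SL, mem_univ, true_and, Set.mem_ofPred_eq] at hg ⊢
    have := det3_act g a b e
    rw [hg.1, hg.2.1, hg.2.2, one_mul] at this
    exact this
  · intro g hg g' hg' hgg
    simp only [coe_filter, Set.mem_ofPred_eq] at hg hg'
    exact act_eq_of_det he (hg.2.1.trans hg'.2.1.symm) (hg.2.2.trans hg'.2.2.symm) hgg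

lemma card_SL3 {a : Fin 3 → F} (h : a ≠ 0) (X : Fin 3 → F) :
    ((SL F).filter (fun g => act g a = X)).card ≤ Fintype.card F ^ 5 := by
  obtain ⟨e, he⟩ := exists_cross_ne h
  have := card_le_mul_card_image (f := fun g => act g e) ((SL F).filter (fun g => act g a = X))
    (Fintype.card F ^ 2) (by
      intro Y _
      rw [filter_filter]
      exact card_SL2 he X Y)
  calc _ ≤ _ := this
    _ ≤ Fintype.card F ^ 2 * (univ : Finset (Fin 3 → F)).card := by
      gcongr; exact subset_univ _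
    _ = _ := by simp; ring

lemma card_SL_ge : Fintype.card F ^ 8 ≤ 4 * (SL F).card := by
  let P := (univ.erase (0 : F)) ×ˢ (univ.erase (0 : F)) ×ˢ (univ : Finset (Fin 6 → F))
  let φ : F × F × (Fin 6 → F) → (Fin 3 → Fin 3 → F) := fun s =>
    ![![s.1, s.2.2 0, s.2.2 2], ![s.2.2 1, (s.2.1 + s.2.2 0 * s.2.2 1) / s.1, s.2.2 3],
      ![s.2.2 4, s.2.2 5,
        (1 - (s.2.2 0 * s.2.2 3 - s.2.2 2 * ((s.2.1 + s.2.2 0 * s.2.2 1) / s.1)) * s.2.2 4
          - (s.2.2 2 * s.2.2 1 - s.1 * s.2.2 3) * s.2.2 5) / s.2.1]]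
  have h1 : P.card ≤ (SL F).card := by
    apply card_le_card_of_injOn φ
    · rintro ⟨a, m, s⟩ hs
      simp only [P, coe_product, coe_erase, coe_univ, Set.mem_prod, Set.mem_sdiff, Set.mem_univ,
        Set.mem_singleton_iff, true_and, and_true] at hs
      obtain ⟨ha, hm⟩ := hs
      rw [mem_coe, mem_SL]
      simp only [det3_eq, φ,
        Matrix.cons_val_zero, Matrix.cons_val_one, Matrix.cons_val]
      field_simp
      ring
    · rintro ⟨a, m, s⟩ hs ⟨a', m', s'⟩ hs' he
      simp only [P, coe_product, coe_erase, coe_univ, Set.mem_prod, Set.mem_sdiff, Set.mem_univ,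
        Set.mem_singleton_iff, true_and, and_true] at hs hs'
      simp only [φ, vec3_ext, Matrix.cons_val_zero, Matrix.cons_val_one, Matrix.cons_val] at he
      obtain ⟨⟨e1, e2, e3⟩, ⟨e4, e5, e6⟩, e7, e8, -⟩ := he
      subst e1
      rw [e2, e4, div_left_inj' hs.1, add_left_inj] at e5
      subst e5
      congr 2
      funext i
      fin_cases i <;> assumption
  have h2 : P.card = (Fintype.card F - 1) * ((Fintype.card F - 1) * Fintype.card F ^ 6) := by
    simp [P, card_product, card_erase_of_mem]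
  have h3 : 2 ≤ Fintype.card F := Fintype.one_lt_card
  obtain ⟨k, hk⟩ : ∃ k, Fintype.card F = k + 1 := ⟨Fintype.card F - 1, by omega⟩
  rw [hk] at h2 h3 ⊢
  simp only [Nat.add_sub_cancel] at h2
  have h4 : k + 1 ≤ 2 * k := by omega
  calc (k + 1) ^ 8 = (k + 1) * (k + 1) * (k + 1) ^ 6 := by ring
    _ ≤ (2 * k) * (2 * k) * (k + 1) ^ 6 := by gcongr
    _ = 4 * P.card := by rw [h2]; ring
    _ ≤ _ := by gcongr

/-- relations among three vectors two of which are independent -/
lemma card_rel {a b c : Fin 3 → F} (h : cross a b ≠ 0 ∨ cross a c ≠ 0) :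
    (univ.filter (fun v : Fin 3 → F => ∀ i, v 0 * a i + v 1 * b i + v 2 * c i = 0)).card
      ≤ Fintype.card F := by
  have aux : ∀ {a b : Fin 3 → F} {s t : F}, cross a b ≠ 0 → (∀ i, s * a i + t * b i = 0) →
      s = 0 ∧ t = 0 := by
    intro a b s t h1 h2
    by_contra hc
    apply h1
    have e0 := h2 0; have e1 := h2 1; have e2 := h2 2
    rw [vec3_eq_zero]
    simp only [cross_0, cross_1, cross_2]
    by_cases hs : s = 0
    · have ht : t ≠ 0 := fun ht => hc ⟨hs, ht⟩
      refine ⟨?_, ?_, ?_⟩ <;> apply mul_left_cancel₀ ht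
      · linear_combination a 1 * e2 - a 2 * e1
      · linear_combination a 2 * e0 - a 0 * e2
      · linear_combination a 0 * e1 - a 1 * e0
    · refine ⟨?_, ?_, ?_⟩ <;> apply mul_left_cancel₀ hs
      · linear_combination b 2 * e1 - b 1 * e2
      · linear_combination b 0 * e2 - b 2 * e0
      · linear_combination b 1 * e0 - b 0 * e1
  rw [← card_univ]
  rcases h with h | h
  · apply card_le_card_of_injOn (fun v => v 2) (by simp)
    intro v hv v' hv' he
    simp only [coe_filter, mem_univ, true_and, Set.mem_ofPred_eq] at hv hv' he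
    obtain ⟨e1, e2⟩ := aux (s := v 0 - v' 0) (t := v 1 - v' 1) h (fun i => by
      linear_combination hv i - hv' i - c i * he)
    rw [vec3_ext]
    exact ⟨sub_eq_zero.1 e1, sub_eq_zero.1 e2, he⟩
  · apply card_le_card_of_injOn (fun v => v 1) (by simp)
    intro v hv v' hv' he
    simp only [coe_filter, mem_univ, true_and, Set.mem_ofPred_eq] at hv hv' he
    obtain ⟨e1, e2⟩ := aux (s := v 0 - v' 0) (t := v 2 - v' 2) h (fun i => by
      linear_combination hv i - hv' i - b i * he)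
    rw [vec3_ext]
    exact ⟨sub_eq_zero.1 e1, he, sub_eq_zero.1 e2⟩

end Vale.Agent.P036
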