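import Vale.Agent.P036.Thick
import Vale.Agent.P036.Defs

/-! Choice of parameters and the final bound. -/

namespace Vale.Agent.P036

open Finset

lemma to_points {N A : ℕ} (hN : 0 < N) (S : Finset V3) (hS : S ⊆ Om N)
    (h1 : ∀ X ∈ S, ∀ Y ∈ S, X ≠ Y → cross X Y ≠ 0)
    (h2 : ∀ X ∈ S, ∀ Y ∈ S, ∀ Z ∈ S, X ≠ Y → X ≠ Z → Y ≠ Z → (A : ℤ) ≤ |det3 X Y Z|) :
    ∃ P : Finset (ℝ × ℝ), P.card = S.card ∧
      (∀ p ∈ P, p.1 ∈ Set.Icc (0 : ℝ) 1 ∧ p.2 ∈ Set.Icc (0 : ℝ) 1) ∧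
      ∀ p ∈ P, ∀ q ∈ P, ∀ r ∈ P, p ≠ q → p ≠ r → q ≠ r →
        (A : ℝ) / (16 * (N : ℝ) ^ 3) ≤ area p q r := by
  classical
  let π : V3 → ℝ × ℝ := fun X => ((X 0 : ℝ) / X 2, (X 1 : ℝ) / X 2)
  have hNr : (0 : ℝ) < N := by exact_mod_cast hN
  have hb : ∀ X ∈ S, (0 ≤ (X 0 : ℝ) ∧ (X 0 : ℝ) ≤ X 2) ∧ (0 ≤ (X 1 : ℝ) ∧ (X 1 : ℝ) ≤ X 2) ∧
      0 < (X 2 : ℝ) ∧ (X 2 : ℝ) ≤ 2 * N := by
    intro X hX
    obtain ⟨⟨a1, a2⟩, ⟨a3, a4⟩, a5, a6⟩ := mem_Om.1 (hS hX)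
    refine ⟨⟨by exact_mod_cast a1, by exact_mod_cast (by omega : X 0 ≤ X 2)⟩,
      ⟨by exact_mod_cast a3, by exact_mod_cast (by omega : X 1 ≤ X 2)⟩,
      by exact_mod_cast (by omega : 0 < X 2), by exact_mod_cast a6.le⟩
  refine ⟨S.image π, ?_, ?_, ?_⟩
  · apply card_image_of_injOn
    intro X hX Y hY he
    by_contra hne
    apply h1 X hX Y hY hne
    have x2 := (hb X hX).2.2.1
    have y2 := (hb Y hY).2.2.1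
    simp only [π, Prod.mk.injEq] at he
    rw [div_eq_div_iff x2.ne' y2.ne', div_eq_div_iff x2.ne' y2.ne'] at he
    have e1 : X 0 * Y 2 = Y 0 * X 2 := by exact_mod_cast he.1
    have e2 : X 1 * Y 2 = Y 1 * X 2 := by exact_mod_cast he.2
    have x2' : X 2 ≠ 0 := by exact_mod_cast x2.ne'
    rw [vec3_eq_zero]
    simp only [cross_0, cross_1, cross_2]
    refine ⟨by linarith, by linarith, ?_⟩
    have y2' : Y 2 ≠ 0 := by exact_mod_cast y2.ne'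
    apply mul_left_cancel₀ y2'
    linear_combination Y 1 * e1 - Y 0 * e2
  · intro p hp
    obtain ⟨X, hX, rfl⟩ := mem_image.1 hp
    obtain ⟨⟨a1, a2⟩, ⟨a3, a4⟩, a5, a6⟩ := hb X hX
    exact ⟨⟨div_nonneg a1 a5.le, (div_le_one a5).2 a2⟩, div_nonneg a3 a5.le, (div_le_one a5).2 a4⟩
  · intro p hp q hq r hr hpq hpr hqr
    obtain ⟨X, hX, rfl⟩ := mem_image.1 hp
    obtain ⟨Y, hY, rfl⟩ := mem_image.1 hq
    obtain ⟨Z, hZ, rfl⟩ := mem_image.1 hr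
    have h := h2 X hX Y hY Z hZ (fun h => hpq (by rw [h])) (fun h => hpr (by rw [h]))
      (fun h => hqr (by rw [h]))
    obtain ⟨-, -, x1, x2⟩ := hb X hX
    obtain ⟨-, -, y1, y2⟩ := hb Y hY
    obtain ⟨-, -, z1, z2⟩ := hb Z hZ
    have e : ((π Y).1 - (π X).1) * ((π Z).2 - (π X).2) - ((π Y).2 - (π X).2) * ((π Z).1 - (π X).1)
        = ((det3 X Y Z : ℤ) : ℝ) / (X 2 * Y 2 * Z 2) := by
      simp only [π, det3_eq]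
      push_cast
      field_simp
      ring
    have h' : (A : ℝ) ≤ |((det3 X Y Z : ℤ) : ℝ)| := by exact_mod_cast h
    rw [area, e, abs_div, abs_of_pos (a := (X 2 : ℝ) * Y 2 * Z 2) (by positivity), div_div]
    apply div_le_div₀ (abs_nonneg _) h' (by positivity)
    calc (X 2 : ℝ) * Y 2 * Z 2 * 2 ≤ (2 * N) * (2 * N) * (2 * N) * 2 := by gcongr
      _ = _ := by ring

lemma numeric {p L Q j z s Bn σ1 σ3 : ℝ} (hp : 1 ≤ p) (hL : 1 ≤ L) (hQ : 1 ≤ Q) (hz : 4 ≤ z)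
    (hs : 1 ≤ s) (h1 : 0 ≤ σ1) (h1' : σ1 ≤ s) (h3' : σ3 ≤ s)
    (hB : Bn ≤ 3 * ((p ^ 2) ^ 2 * L ^ 3)) (hQL : Q ≤ p ^ 2 * L ^ 2)
    (hj1 : L * Q ^ 5 * p * z ≤ j) (hj2 : j ≤ 2 * (L * Q ^ 5 * p * z))
    (hsz : 800000000 * s ≤ z ^ 2) :
    p * Q ^ 7 / (8 * z) * j ^ 4 ≤ p ^ 2 * L * (Q ^ 4) ^ 3 * ((j - 1) * j ^ 2)
      - p ^ 2 * L * (Q ^ 4) ^ 3 * (Q * Q ^ 4) * j ^ 2
      - 4 * j * (Bn * (23328 * (2 * (Q * Q ^ 4)) ^ 4 * (2 * (Q * Q ^ 4)) ^ 2 * σ1 +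
          Q ^ 3 * ((18 * (2 * (Q * Q ^ 4)) ^ 2) ^ 3 * ((27 + 8 * σ1) / Q ^ 3))) +
          p ^ 2 * L * (Q ^ 5 * (23328 * (Q ^ 4) ^ 4 * (2 * (Q * Q ^ 4)) ^ 2 * σ3))) / Q ^ 8 := by
  have hQ5 : 1 ≤ Q ^ 5 := one_le_pow₀ hQ
  have hj0 : 4 * Q ^ 5 ≤ j := by
    calc 4 * Q ^ 5 = 1 * Q ^ 5 * 1 * 4 := by ring
      _ ≤ L * Q ^ 5 * p * z := by gcongr
      _ ≤ j := hj1
  have hjp : 0 < j := by linarith
  have e1 : p * Q ^ 7 / (8 * z) * j ^ 4 ≤ p ^ 2 * L * Q ^ 12 * j ^ 3 / 4 := by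
    calc p * Q ^ 7 / (8 * z) * j ^ 4 = p * Q ^ 7 / (8 * z) * j ^ 3 * j := by ring
      _ ≤ p * Q ^ 7 / (8 * z) * j ^ 3 * (2 * (L * Q ^ 5 * p * z)) := by gcongr
      _ = _ := by field_simp; ring
  have e2 : p ^ 2 * L * Q ^ 12 * j ^ 3 / 2 ≤ p ^ 2 * L * (Q ^ 4) ^ 3 * ((j - 1) * j ^ 2)
      - p ^ 2 * L * (Q ^ 4) ^ 3 * (Q * Q ^ 4) * j ^ 2 := by
    have : j / 2 ≤ j - 1 - Q ^ 5 := by linarith
    calc p ^ 2 * L * Q ^ 12 * j ^ 3 / 2 = p ^ 2 * L * Q ^ 12 * j ^ 2 * (j / 2) := by ring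
      _ ≤ p ^ 2 * L * Q ^ 12 * j ^ 2 * (j - 1 - Q ^ 5) := by gcongr
      _ = _ := by ring
  have e3 : 23328 * (2 * (Q * Q ^ 4)) ^ 4 * (2 * (Q * Q ^ 4)) ^ 2 * σ1 +
          Q ^ 3 * ((18 * (2 * (Q * Q ^ 4)) ^ 2) ^ 3 * ((27 + 8 * σ1) / Q ^ 3))
          ≤ 15000000 * s * Q ^ 30 := by
    have : 23328 * (2 * (Q * Q ^ 4)) ^ 4 * (2 * (Q * Q ^ 4)) ^ 2 * σ1 +
          Q ^ 3 * ((18 * (2 * (Q * Q ^ 4)) ^ 2) ^ 3 * ((27 + 8 * σ1) / Q ^ 3))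
          = (1492992 * σ1 + 373248 * (27 + 8 * σ1)) * Q ^ 30 := by
      field_simp; ring
    rw [this]
    apply mul_le_mul_of_nonneg_right _ (by positivity)
    linarith
  have e4 : p ^ 2 * L * (Q ^ 5 * (23328 * (Q ^ 4) ^ 4 * (2 * (Q * Q ^ 4)) ^ 2 * σ3))
      ≤ 93312 * s * (p ^ 4 * L ^ 3 * Q ^ 30) := by
    calc _ = 93312 * σ3 * (p ^ 2 * L * Q * Q ^ 30) := by ring
      _ ≤ 93312 * s * (p ^ 2 * L * (p ^ 2 * L ^ 2) * Q ^ 30) := by gcongr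
      _ = _ := by ring
  have e5 : Bn * (23328 * (2 * (Q * Q ^ 4)) ^ 4 * (2 * (Q * Q ^ 4)) ^ 2 * σ1 +
          Q ^ 3 * ((18 * (2 * (Q * Q ^ 4)) ^ 2) ^ 3 * ((27 + 8 * σ1) / Q ^ 3)))
          ≤ 45000000 * s * (p ^ 4 * L ^ 3 * Q ^ 30) := by
    calc _ ≤ 3 * ((p ^ 2) ^ 2 * L ^ 3) * (15000000 * s * Q ^ 30) :=
          mul_le_mul hB e3 (by positivity) (by positivity)
      _ = _ := by ring
  have e6 : 4 * j * (Bn * (23328 * (2 * (Q * Q ^ 4)) ^ 4 * (2 * (Q * Q ^ 4)) ^ 2 * σ1 +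
          Q ^ 3 * ((18 * (2 * (Q * Q ^ 4)) ^ 2) ^ 3 * ((27 + 8 * σ1) / Q ^ 3))) +
          p ^ 2 * L * (Q ^ 5 * (23328 * (Q ^ 4) ^ 4 * (2 * (Q * Q ^ 4)) ^ 2 * σ3))) / Q ^ 8
        ≤ p ^ 2 * L * Q ^ 12 * j ^ 3 / 4 := by
    have f1 : 0 ≤ s * (p ^ 4 * L ^ 3 * Q ^ 30) := by positivity
    calc _ ≤ 4 * j * (50000000 * s * (p ^ 4 * L ^ 3 * Q ^ 30)) / Q ^ 8 := by
          gcongr; linarith
      _ = (800000000 * s) * (j * p ^ 4 * L ^ 3 * Q ^ 22 / 4) := by field_simp; ring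
      _ ≤ z ^ 2 * (j * p ^ 4 * L ^ 3 * Q ^ 22 / 4) := by gcongr
      _ = p ^ 2 * L * Q ^ 12 * j * (L * Q ^ 5 * p * z) ^ 2 / 4 := by ring
      _ ≤ p ^ 2 * L * Q ^ 12 * j * j ^ 2 / 4 := by gcongr
      _ = _ := by ring
  linarith

lemma sig_mono {a b : ℕ} (h : a ≤ b) : sig a ≤ sig b :=
  sum_le_sum_of_subset_of_nonneg (box_mono h) fun _ _ _ => by positivity

lemma config_core (p D Q j z A : ℕ) [Fact p.Prime] [Fact Q.Prime] [Fact j.Prime] (hz : 4 ≤ z)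
    (hD : 1 ≤ D) (hQ : Q ≤ 2 * D ^ 2) (hA1 : 2 * A ≤ Q) (hA2 : Q ≤ 8 * p * A)
    (hj1 : D * Q ^ 5 * p * z < j) (hj2 : j ≤ 2 * (D * Q ^ 5 * p * z))
    (w : (ZMod p × ZMod p) × Fin D → Fin 3 → ZMod Q) (hw : Internal Q A Prod.fst w)
    (hsz : 800000000 * (26 * (1 + Real.log (72 * (Q : ℝ) ^ 10))) ≤ (z : ℝ) ^ 2) :
    ∃ P : Finset (ℝ × ℝ), (p : ℝ) * (Q : ℝ) ^ 7 / (8 * z) ≤ P.card ∧
    (∀ p ∈ P, p.1 ∈ Set.Icc (0 : ℝ) 1 ∧ p.2 ∈ Set.Icc (0 : ℝ) 1) ∧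
    ∀ a ∈ P, ∀ b ∈ P, ∀ c ∈ P, a ≠ b → a ≠ c → b ≠ c →
      1 / (128 * p * (Q : ℝ) ^ 14) ≤ area a b c := by
  have hp : 2 ≤ p := (Fact.out : p.Prime).two_le
  have hQ0 : 0 < Q := (Fact.out : Q.Prime).pos
  have hjQ : Q * Q ^ 4 * 4 ≤ D * Q ^ 5 * p * z := by
    calc Q * Q ^ 4 * 4 = 1 * Q ^ 5 * 1 * 4 := by ring
      _ ≤ _ := by gcongr; omega
  have hQ5 : 1 ≤ Q * Q ^ 4 := Nat.succ_le_of_lt (by positivity)
  have hQr : (1 : ℝ) ≤ Q := by exact_mod_cast hQ0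
  have hpr : (1 : ℝ) ≤ p := by exact_mod_cast (by omega : 1 ≤ p)
  have hzr : (4 : ℝ) ≤ z := by exact_mod_cast hz
  have e : ((18 * (2 * (Q * Q ^ 4)) ^ 2 : ℕ) : ℝ) = 72 * (Q : ℝ) ^ 10 := by push_cast; ring
  have hlog0 : 0 ≤ Real.log (72 * (Q : ℝ) ^ 10) := by rw [← e]; exact Real.log_natCast_nonneg _
  have s1 : sig (18 * (2 * (Q * Q ^ 4)) ^ 2) ≤ 26 * (1 + Real.log (72 * (Q : ℝ) ^ 10)) := by
    rw [← e]; exact sig_le _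
  have s2 : sig (18 * (Q ^ 4) ^ 2) ≤ sig (18 * (2 * (Q * Q ^ 4)) ^ 2) := by
    apply sig_mono
    have : Q ^ 4 ≤ 2 * (Q * Q ^ 4) := by nlinarith [Nat.one_le_pow 4 Q hQ0]
    gcongr
  have hQD : Q ≤ p ^ 2 * D ^ 2 := by
    refine hQ.trans (Nat.mul_le_mul_right _ ?_)
    nlinarith
  have hcI : (Fintype.card ((ZMod p × ZMod p) × Fin D) : ℝ) = (p : ℝ) ^ 2 * D := by
    simp [sq]
  have hB := card_not_dist (T := ZMod p × ZMod p) D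
  have hcT : Fintype.card (ZMod p × ZMod p) = p ^ 2 := by simp [sq]
  rw [hcT] at hB
  have hnum := numeric (p := p) (L := D) (Q := Q) (j := j) (z := z)
    (σ1 := sig (18 * (2 * (Q * Q ^ 4)) ^ 2)) (σ3 := sig (18 * (Q ^ 4) ^ 2))
    (Bn := ((univ : Finset (((ZMod p × ZMod p) × Fin D) × ((ZMod p × ZMod p) × Fin D) ×
      ((ZMod p × ZMod p) × Fin D))).filter (fun i => ¬ Dist Prod.fst i)).card)
    hpr (by exact_mod_cast hD) hQr hzr (by linarith) (sig_nonneg _) s1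
    (s2.trans s1) (by exact_mod_cast hB) (by exact_mod_cast hQD) (by exact_mod_cast hj1.le)
    (by exact_mod_cast hj2) hsz
  obtain ⟨S, hS, hcard, h1, h2⟩ := average (J := Q ^ 4) (j := j) (by omega) (by omega)
    hA1 hw ((p : ℝ) * (Q : ℝ) ^ 7 / (8 * z)) (by
      rw [hcI]
      unfold R1 R2 R3
      push_cast
      exact hnum)
  obtain ⟨P, hP1, hP2, hP3⟩ := to_points hQ5 S hS h1 h2
  refine ⟨P, hP1 ▸ hcard, hP2,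
    fun a ha b hb c hc hab hac hbc => le_trans ?_ (hP3 a ha b hb c hc hab hac hbc)⟩
  have g2 : (Q : ℝ) ≤ 8 * p * A := by exact_mod_cast hA2
  rw [div_le_div_iff₀ (by positivity) (by positivity)]
  push_cast
  calc 1 * (16 * ((Q : ℝ) * Q ^ 4) ^ 3) = 16 * (Q : ℝ) * (Q : ℝ) ^ 14 := by ring
    _ ≤ 16 * (8 * (p : ℝ) * A) * (Q : ℝ) ^ 14 := by gcongr
    _ = _ := by ring

lemma log_bound (f c2 : ℕ) (hc2 : 0 < c2) : ∃ z0 : ℕ, ∀ z Q : ℕ, z0 ≤ z → 0 < Q →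
    Q ≤ c2 * z ^ (8 * f) →
    800000000 * (26 * (1 + Real.log (72 * (Q : ℝ) ^ 10))) ≤ (z : ℝ) ^ 2 := by
  obtain ⟨a0, ha0⟩ : ∃ a0 : ℝ, a0 = 800000000 * (26 * (1 + Real.log (72 * (c2 : ℝ) ^ 10))) :=
    ⟨_, rfl⟩
  obtain ⟨a1, ha1⟩ : ∃ a1 : ℝ, a1 = 800000000 * (26 * (80 * f)) := ⟨_, rfl⟩
  refine ⟨1 + ⌈|a0| + a1⌉₊, fun z Q hz hQ hQup => ?_⟩
  have hzr : (1 : ℝ) ≤ z := by exact_mod_cast (by omega : 1 ≤ z)
  have hza : |a0| + a1 ≤ z := Nat.ceil_le.1 (by omega)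
  have hQupr : (Q : ℝ) ≤ c2 * (z : ℝ) ^ (8 * f) := by exact_mod_cast hQup
  have l1 : Real.log (72 * (Q : ℝ) ^ 10) ≤ Real.log (72 * (c2 : ℝ) ^ 10) + 80 * f * z := by
    calc _ ≤ Real.log (72 * (c2 * (z : ℝ) ^ (8 * f)) ^ 10) := by gcongr
      _ = Real.log (72 * (c2 : ℝ) ^ 10) + 80 * f * Real.log z := by
          rw [mul_pow, ← mul_assoc, Real.log_mul (by positivity) (by positivity), ← pow_mul,
            Real.log_pow]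
          push_cast; ring
      _ ≤ _ := by
          gcongr
          exact (Real.log_le_sub_one_of_pos (by linarith)).trans (by linarith)
  have l3 : a0 ≤ |a0| * z := by
    have := le_abs_self a0
    have := abs_nonneg a0
    nlinarith
  have l4 : (|a0| + a1) * z ≤ z * z := mul_le_mul_of_nonneg_right hza (by linarith)
  have l5 : a0 + a1 * z = 800000000 * (26 * (1 + (Real.log (72 * (c2 : ℝ) ^ 10) + 80 * f * z))) := by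
    rw [ha0, ha1]; ring
  nlinarith

theorem config : ∃ (f z0 : ℕ) (c : ℝ), 0 < c ∧ ∀ z : ℕ, z0 ≤ z → ∃ P : Finset (ℝ × ℝ),
    (z : ℝ) ^ (3 + 56 * f) ≤ P.card ∧
    (∀ p ∈ P, p.1 ∈ Set.Icc (0 : ℝ) 1 ∧ p.2 ∈ Set.Icc (0 : ℝ) 1) ∧
    ∀ p ∈ P, ∀ q ∈ P, ∀ r ∈ P, p ≠ q → p ≠ r → q ≠ r →
      c / (z : ℝ) ^ (4 + 112 * f) ≤ area p q r := by
  obtain ⟨c, e, hc, he, hg⟩ := gadget
  obtain ⟨f, hf⟩ : ∃ f, f = 2 * e + 1 := ⟨_, rfl⟩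
  obtain ⟨c2, hc2⟩ : ∃ c2 : ℕ, c2 = 288 * c ^ 4 * 4 ^ f := ⟨_, rfl⟩
  have hc2pos : 0 < c2 := by rw [hc2]; positivity
  obtain ⟨z0, hz0⟩ := log_bound f c2 hc2pos
  refine ⟨f, 4 + z0, 1 / (256 * (c2 : ℝ) ^ 14), by positivity, fun z hz => ?_⟩
  have hz4 : 4 ≤ z := by omega
  have hzr : (4 : ℝ) ≤ z := by exact_mod_cast hz4
  obtain ⟨p, hp, hp1, hp2⟩ := Nat.exists_prime_lt_and_le_two_mul (z ^ 4) (by positivity)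
  have hp5 : 5 ≤ p := by
    have : 4 ^ 4 ≤ z ^ 4 := Nat.pow_le_pow_left hz4 4
    omega
  obtain ⟨K, hK⟩ : ∃ K, K = c * p ^ e := ⟨_, rfl⟩
  have hK1 : 1 ≤ K := Nat.succ_le_of_lt (by rw [hK]; positivity)
  obtain ⟨D, hD⟩ : ∃ D, D = 12 * p * K ^ 2 := ⟨_, rfl⟩
  have hD1 : K ^ 2 ≤ D := by rw [hD]; nlinarith
  have hD0 : 1 ≤ D := le_trans (Nat.one_le_pow _ _ hK1) hD1
  obtain ⟨Q, hQ, hQ1, hQ2⟩ := Nat.exists_prime_lt_and_le_two_mul (D ^ 2) (by positivity)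
  obtain ⟨j, hj, hj1, hj2⟩ := Nat.exists_prime_lt_and_le_two_mul (D * Q ^ 5 * p * z)
    (by have := hQ.pos; positivity)
  have := Fact.mk hp
  have := Fact.mk hQ
  have := Fact.mk hj
  have hDD : D ≤ D ^ 2 := by nlinarith
  have hA : 4 * p * (3 * K ^ 2 * D) = D ^ 2 := by
    rw [sq D]; nth_rewrite 2 [hD]; ring
  have hA' : 2 * p * (3 * K ^ 2 * D) + 6 * p * D * K ^ 2 = D ^ 2 := by rw [← hA]; ring
  obtain ⟨w, hw⟩ := hg p Q D (3 * K ^ 2 * D) hp5 (by rw [← hK]; omega) (by omega)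
    (by rw [← hK]; omega)
  have hDz : D ^ 2 = 144 * c ^ 4 * (p ^ f) ^ 2 := by rw [hD, hK, hf]; ring
  have hQup : Q ≤ c2 * z ^ (8 * f) := by
    calc Q ≤ 2 * D ^ 2 := hQ2
      _ = 288 * c ^ 4 * (p ^ f) ^ 2 := by rw [hDz]; ring
      _ ≤ 288 * c ^ 4 * ((2 * z ^ 4) ^ f) ^ 2 := by gcongr
      _ = 288 * c ^ 4 * ((2 * z ^ 4) ^ 2) ^ f := by rw [← pow_mul, ← pow_mul, mul_comm f 2]
      _ = 288 * c ^ 4 * (4 * z ^ 8) ^ f := by congr 2; ring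
      _ = _ := by rw [hc2, mul_pow, ← pow_mul]; ring
  have hQlo : 2 * z ^ (8 * f) ≤ Q := by
    have : 1 ≤ c ^ 4 := Nat.one_le_pow _ _ hc
    calc 2 * z ^ (8 * f) = 2 * 1 * ((z ^ 4) ^ f) ^ 2 := by
          rw [← pow_mul, ← pow_mul]; ring_nf
      _ ≤ 144 * c ^ 4 * (p ^ f) ^ 2 := by gcongr; norm_num
      _ = D ^ 2 := hDz.symm
      _ ≤ Q := hQ1.le
  have hQupr : (Q : ℝ) ≤ c2 * (z : ℝ) ^ (8 * f) := by exact_mod_cast hQup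
  obtain ⟨A, hA3⟩ : ∃ A, A = 3 * K ^ 2 * D := ⟨_, rfl⟩
  rw [← hA3] at hw hA
  obtain ⟨P, h1, h2, h3⟩ := config_core p D Q j z A hz4 hD0 hQ2 (by nlinarith) (by nlinarith)
    hj1 hj2 w hw (hz0 z Q (by omega) hQ.pos hQup)
  refine ⟨P, le_trans ?_ h1, h2,
    fun a ha b hb c hc hab hac hbc => le_trans ?_ (h3 a ha b hb c hc hab hac hbc)⟩
  · rw [le_div_iff₀ (by positivity)]
    have g1 : (z : ℝ) ^ 4 ≤ p := by exact_mod_cast hp1.le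
    have g2 : 2 * (z : ℝ) ^ (8 * f) ≤ Q := by exact_mod_cast hQlo
    calc (z : ℝ) ^ (3 + 56 * f) * (8 * z) ≤ (z : ℝ) ^ (3 + 56 * f) * (128 * z) := by
          gcongr; norm_num
      _ = (z : ℝ) ^ 4 * (2 * (z : ℝ) ^ (8 * f)) ^ 7 := by
          rw [mul_pow, ← pow_mul]; ring
      _ ≤ _ := by gcongr
  · have g1 : (p : ℝ) ≤ 2 * (z : ℝ) ^ 4 := by exact_mod_cast hp2
    have := hQ.pos
    have := hp.pos
    rw [div_div]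
    apply one_div_le_one_div_of_le (by positivity)
    calc 128 * p * (Q : ℝ) ^ 14 ≤ 128 * (2 * (z : ℝ) ^ 4) * (c2 * (z : ℝ) ^ (8 * f)) ^ 14 := by
          gcongr
      _ = _ := by rw [mul_pow, ← pow_mul]; ring

theorem points : ∃ δ : ℝ, 0 < δ ∧ ∃ c : ℝ, 0 < c ∧ ∀ n : ℕ, 3 ≤ n → ∃ P : Finset (ℝ × ℝ),
    P.card = n ∧ (∀ p ∈ P, p.1 ∈ Set.Icc (0 : ℝ) 1 ∧ p.2 ∈ Set.Icc (0 : ℝ) 1) ∧
    ∀ p ∈ P, ∀ q ∈ P, ∀ r ∈ P, p ≠ q → p ≠ r → q ≠ r →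
      c * (n : ℝ) ^ (-2 + δ) ≤ area p q r := by
  obtain ⟨f, z0, c, hc, h⟩ := config
  set a : ℕ := 3 + 56 * f with ha
  have ha0 : (0 : ℝ) < a := by rw [ha]; positivity
  refine ⟨2 / a, by positivity, c / ((z0 : ℝ) + 2) ^ (4 + 112 * f), by positivity, fun n hn => ?_⟩
  have hn1 : (1 : ℝ) ≤ n := by exact_mod_cast (by omega : 1 ≤ n)
  set x : ℝ := (n : ℝ) ^ (1 / (a : ℝ)) with hx
  have hx1 : 1 ≤ x := Real.one_le_rpow hn1 (by positivity)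
  have hxa : x ^ a = n := by
    rw [hx, ← Real.rpow_natCast, ← Real.rpow_mul (by positivity)]
    rw [one_div_mul_cancel ha0.ne', Real.rpow_one]
  obtain ⟨P, h1, h2, h3⟩ := h (z0 + ⌈x⌉₊) (by omega)
  have hz1 : x ≤ ((z0 + ⌈x⌉₊ : ℕ) : ℝ) := by
    push_cast
    have := Nat.le_ceil x
    have : (0 : ℝ) ≤ z0 := by positivity
    linarith
  have hz2 : ((z0 + ⌈x⌉₊ : ℕ) : ℝ) ≤ (z0 + 2) * x := by
    push_cast
    have := Nat.ceil_lt_add_one (by linarith : 0 ≤ x)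
    have : (0 : ℝ) ≤ z0 := by positivity
    nlinarith
  have hle : n ≤ P.card := by
    have : (n : ℝ) ≤ P.card := by
      rw [← hxa]
      exact le_trans (by gcongr) h1
    exact_mod_cast this
  obtain ⟨P', hP', hc'⟩ := Finset.exists_subset_card_eq hle
  refine ⟨P', hc', fun p hp => h2 p (hP' hp), fun p hp q hq r hr a1 a2 a3 =>
    le_trans ?_ (h3 p (hP' hp) q (hP' hq) r (hP' hr) a1 a2 a3)⟩
  have e : (n : ℝ) ^ (-2 + 2 / (a : ℝ)) = (x ^ (4 + 112 * f))⁻¹ := by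
    rw [hx, ← Real.rpow_natCast, ← Real.rpow_mul (by positivity), ← Real.rpow_neg (by positivity)]
    congr 1
    field_simp
    rw [ha]; push_cast; ring
  rw [e, ← div_eq_mul_inv, div_div, ← mul_pow]
  gcongr

lemma area_le {p q r : ℝ × ℝ} (hp : p.1 ∈ Set.Icc (0 : ℝ) 1 ∧ p.2 ∈ Set.Icc (0 : ℝ) 1)
    (hq : q.1 ∈ Set.Icc (0 : ℝ) 1 ∧ q.2 ∈ Set.Icc (0 : ℝ) 1)
    (hr : r.1 ∈ Set.Icc (0 : ℝ) 1 ∧ r.2 ∈ Set.Icc (0 : ℝ) 1) : area p q r ≤ 1 := by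
  obtain ⟨⟨a1, a2⟩, a3, a4⟩ := hp
  obtain ⟨⟨b1, b2⟩, b3, b4⟩ := hq
  obtain ⟨⟨c1, c2⟩, c3, c4⟩ := hr
  have h1 : |(q.1 - p.1) * (r.2 - p.2)| ≤ 1 := by
    rw [abs_mul]
    exact mul_le_one₀ (abs_le.2 ⟨by linarith, by linarith⟩) (abs_nonneg _)
      (abs_le.2 ⟨by linarith, by linarith⟩)
  have h2 : |(q.2 - p.2) * (r.1 - p.1)| ≤ 1 := by
    rw [abs_mul]
    exact mul_le_one₀ (abs_le.2 ⟨by linarith, by linarith⟩) (abs_nonneg _)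
      (abs_le.2 ⟨by linarith, by linarith⟩)
  have := abs_sub ((q.1 - p.1) * (r.2 - p.2)) ((q.2 - p.2) * (r.1 - p.1))
  unfold area
  linarith

lemma le_heilbronn {n : ℕ} (hn : 3 ≤ n) {b : ℝ} (P : Finset (ℝ × ℝ)) (h1 : P.card = n)
    (h2 : ∀ p ∈ P, p.1 ∈ Set.Icc (0 : ℝ) 1 ∧ p.2 ∈ Set.Icc (0 : ℝ) 1)
    (h3 : ∀ p ∈ P, ∀ q ∈ P, ∀ r ∈ P, p ≠ q → p ≠ r → q ≠ r → b ≤ area p q r) :
    b ≤ heilbronn n := by
  have hb : b ≤ minArea P := by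
    apply le_csInf
    · obtain ⟨p, q, r, hp, hq, hr, a1, a2, a3⟩ := Finset.two_lt_card_iff.1 (by omega : 2 < P.card)
      exact ⟨_, p, hp, q, hq, r, hr, a1, a2, a3, rfl⟩
    · rintro _ ⟨p, hp, q, hq, r, hr, a1, a2, a3, rfl⟩
      exact h3 p hp q hq r hr a1 a2 a3
  refine hb.trans (le_csSup ⟨1, ?_⟩ ⟨P, h2, h1, rfl⟩)
  rintro _ ⟨P', g2, g1, rfl⟩
  obtain ⟨p, q, r, hp, hq, hr, a1, a2, a3⟩ := Finset.two_lt_card_iff.1 (by omega : 2 < P'.card)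
  refine le_trans (csInf_le ⟨0, ?_⟩ ⟨p, hp, q, hq, r, hr, a1, a2, a3, rfl⟩)
    (area_le (g2 p hp) (g2 q hq) (g2 r hr))
  rintro _ ⟨p, -, q, -, r, -, -, -, -, rfl⟩
  unfold area
  positivity

theorem lower : ∃ δ : ℝ, 0 < δ ∧ ∃ c : ℝ, 0 < c ∧ ∀ n : ℕ, 3 ≤ n →
    c * (n : ℝ) ^ (-2 + δ) ≤ heilbronn n := by
  obtain ⟨δ, hδ, c, hc, h⟩ := points
  refine ⟨δ, hδ, c, hc, fun n hn => ?_⟩
  obtain ⟨P, h1, h2, h3⟩ := h n hn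
  exact le_heilbronn hn P h1 h2 h3

theorem not_upper : ¬ ∀ ε : ℝ, 0 < ε → ∃ (C : ℝ) (n₀ : ℕ), ∀ n : ℕ, n₀ ≤ n →
    heilbronn n ≤ C * (n : ℝ) ^ (-2 + ε) := by
  intro h
  obtain ⟨δ, hδ, c, hc, hl⟩ := lower
  obtain ⟨C, n0, hu⟩ := h (δ / 2) (by positivity)
  have ht : Filter.Tendsto (fun n : ℕ => (n : ℝ) ^ (δ / 2)) Filter.atTop Filter.atTop :=
    (tendsto_rpow_atTop (by positivity)).comp tendsto_natCast_atTop_atTop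
  obtain ⟨n, hn1, hn2, hn3⟩ := ((ht.eventually_gt_atTop (C / c)).and
    ((Filter.eventually_ge_atTop n0).and (Filter.eventually_ge_atTop 3))).exists
  have hn0 : (0 : ℝ) < n := by exact_mod_cast (by omega : 0 < n)
  have h1 := (hl n hn3).trans (hu n hn2)
  have e : (n : ℝ) ^ (-2 + δ) = (n : ℝ) ^ (δ / 2) * (n : ℝ) ^ (-2 + δ / 2) := by
    rw [← Real.rpow_add hn0]; congr 1; ring
  rw [e, ← mul_assoc] at h1
  have h2 := le_of_mul_le_mul_right h1 (Real.rpow_pos_of_pos hn0 _)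
  rw [div_lt_iff₀ hc] at hn1
  linarith

end Vale.Agent.P036
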