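import Vale.Agent.P036.Average

/-! The algebraic gadget: many vectors whose determinants are far from multiples of a modulus. -/

namespace Vale.Agent.P036

open Finset

lemma exists_cubic (p : ℕ) [Fact p.Prime] :
    ∃ β : ZMod p, ∀ x y : ZMod p, x ^ 3 - x * y ^ 2 - β * y ^ 3 = 0 → x = 0 ∧ y = 0 := by
  have : ¬ Function.Surjective (fun x : ZMod p => x ^ 3 - x) := by
    rw [← Finite.injective_iff_surjective]
    intro h
    have := @h 0 1 (by simp)
    exact zero_ne_one this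
  unfold Function.Surjective at this
  push Not at this
  obtain ⟨β, hβ⟩ := this
  refine ⟨β, fun x y h => ?_⟩
  by_cases hy : y = 0
  · subst hy
    simp at h
    exact ⟨h, rfl⟩
  · exfalso
    apply hβ (x / y)
    field_simp
    linear_combination h

lemma exists_decomp (p : ℕ) [Fact p.Prime] (hp : 5 ≤ p) :
    ∃ Φ : (Fin 6 × Fin 6 × Fin 6) → ZMod p × ZMod p → Fin 3 → ZMod p,
      ∀ t u v, t ≠ u → t ≠ v → u ≠ v → ∑ i, det3 (Φ i t) (Φ i u) (Φ i v) ≠ 0 := by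
  obtain ⟨β, hβ⟩ := exists_cubic p
  let C : ZMod p × ZMod p → ZMod p := fun t => t.1 ^ 3 - t.1 * t.2 ^ 2 - β * t.2 ^ 3
  let f : Fin 6 → ZMod p × ZMod p → ZMod p := fun a t =>
    ![C t, -(3 * t.1 ^ 2 - t.2 ^ 2), -(-2 * t.1 * t.2 - 3 * β * t.2 ^ 2), t.1, t.2, -1] a
  let g : Fin 6 → ZMod p × ZMod p → ZMod p := fun a t =>
    ![1, t.1, t.2, 3 * t.1 ^ 2 - t.2 ^ 2, -2 * t.1 * t.2 - 3 * β * t.2 ^ 2, C t] a
  have hfg : ∀ t u, ∑ a, f a t * g a u = C (t - u) := by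
    intro t u
    simp only [Fin.sum_univ_six, f, g, C, Matrix.cons_val_zero, Matrix.cons_val_one,
      Matrix.cons_val, Prod.fst_sub, Prod.snd_sub]
    ring
  have hC : ∀ t u, t ≠ u → C (t - u) ≠ 0 := by
    intro t u htu h
    obtain ⟨h1, h2⟩ := hβ _ _ h
    apply htu
    simp only [Prod.fst_sub, Prod.snd_sub, sub_eq_zero] at h1 h2
    exact Prod.ext h1 h2
  have hodd : ∀ t u, C (u - t) = - C (t - u) := by
    intro t u
    simp only [C, Prod.fst_sub, Prod.snd_sub]; ring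
  let Φ : (Fin 6 × Fin 6 × Fin 6) → ZMod p × ZMod p → Fin 3 → ZMod p := fun i t =>
    ![f i.1 t * g i.2.2 t, g i.1 t * f i.2.1 t, g i.2.1 t * f i.2.2 t]
  have hF : ∀ t u v, ∑ i, Φ i t 0 * Φ i u 1 * Φ i v 2 = C (t - u) * C (u - v) * C (v - t) := by
    intro t u v
    rw [← hfg, ← hfg, ← hfg, mul_assoc, Finset.sum_mul_sum, Fintype.sum_prod_type,
      Finset.sum_mul]
    apply Finset.sum_congr rfl
    intro a _
    rw [Fintype.sum_prod_type, Finset.mul_sum]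
    apply Finset.sum_congr rfl
    intro b _
    rw [Finset.mul_sum]
    apply Finset.sum_congr rfl
    intro c _
    simp only [Φ, Matrix.cons_val_zero, Matrix.cons_val_one, Matrix.cons_val]
    ring
  refine ⟨Φ, fun t u v htu htv huv => ?_⟩
  have e : ∑ i, det3 (Φ i t) (Φ i u) (Φ i v) = 6 * (C (t - u) * C (u - v) * C (v - t)) := by
    have : ∀ i, det3 (Φ i t) (Φ i u) (Φ i v) =
        Φ i t 0 * Φ i u 1 * Φ i v 2 + Φ i u 0 * Φ i v 1 * Φ i t 2 + Φ i v 0 * Φ i t 1 * Φ i u 2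
        - Φ i u 0 * Φ i t 1 * Φ i v 2 - Φ i t 0 * Φ i v 1 * Φ i u 2
        - Φ i v 0 * Φ i u 1 * Φ i t 2 := by
      intro i; rw [det3_eq]; ring
    simp only [this, sum_add_distrib, sum_sub_distrib, hF]
    rw [hodd t u, hodd u v, hodd v t]
    ring
  rw [e]
  refine mul_ne_zero ?_ (mul_ne_zero (mul_ne_zero (hC _ _ htu) (hC _ _ huv)) (hC _ _ htv.symm))
  have : ((6 : ℕ) : ZMod p) ≠ 0 := by
    rw [Ne, ZMod.natCast_eq_zero_iff]
    intro h
    have h6 := Nat.le_of_dvd (by norm_num) h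
    have hp' : p.Prime := Fact.out
    interval_cases p
    · norm_num at h
    · norm_num at hp'
  exact_mod_cast this

lemma det3_sum {κ : Type*} [Fintype κ] (a b c : κ → ℤ) (X Y Z : κ → V3) :
    det3 ![∑ i, a i * X i 0, ∑ i, b i * X i 1, ∑ i, c i * X i 2]
      ![∑ i, a i * Y i 0, ∑ i, b i * Y i 1, ∑ i, c i * Y i 2]
      ![∑ i, a i * Z i 0, ∑ i, b i * Z i 1, ∑ i, c i * Z i 2] =
    ∑ s : κ × κ × κ, a s.1 * b s.2.1 * c s.2.2 *
      det3 ![X s.1 0, X s.2.1 1, X s.2.2 2] ![Y s.1 0, Y s.2.1 1, Y s.2.2 2]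
        ![Z s.1 0, Z s.2.1 1, Z s.2.2 2] := by
  have key : ∀ x y z : κ → ℤ, (∑ i, a i * x i) * (∑ i, b i * y i) * (∑ i, c i * z i) =
      ∑ s : κ × κ × κ, a s.1 * b s.2.1 * c s.2.2 * (x s.1 * y s.2.1 * z s.2.2) := by
    intro x y z
    rw [mul_assoc, Finset.sum_mul_sum, Fintype.sum_prod_type, Finset.sum_mul]
    apply Finset.sum_congr rfl
    intro a _
    rw [Fintype.sum_prod_type, Finset.mul_sum]
    apply Finset.sum_congr rfl
    intro b _
    rw [Finset.mul_sum]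
    apply Finset.sum_congr rfl
    intro c _
    ring
  have e : ∀ X Y Z : V3, det3 X Y Z = X 0 * Y 1 * Z 2 + Y 0 * Z 1 * X 2 + Z 0 * X 1 * Y 2
        - Y 0 * X 1 * Z 2 - X 0 * Z 1 * Y 2 - Z 0 * Y 1 * X 2 := by
    intro X Y Z; rw [det3_eq]; ring
  simp only [e, Matrix.cons_val_zero, Matrix.cons_val_one, Matrix.cons_val, key, mul_add, mul_sub,
    sum_add_distrib, sum_sub_distrib]

lemma det3_abs_le {X Y Z : V3} {p : ℤ} (hX : ∀ i, |X i| ≤ p) (hY : ∀ i, |Y i| ≤ p)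
    (hZ : ∀ i, |Z i| ≤ p) : |det3 X Y Z| ≤ 6 * p ^ 3 := by
  have h : ∀ i j k, |X i * Y j * Z k| ≤ p ^ 3 := by
    intro i j k
    have hp : 0 ≤ p := (abs_nonneg _).trans (hX 0)
    rw [abs_mul, abs_mul]
    calc |X i| * |Y j| * |Z k| ≤ p * p * p := by gcongr <;> simp [hX, hY, hZ]
      _ = p ^ 3 := by ring
  have h1 := h 0 1 2; have h2 := h 0 2 1; have h3 := h 1 0 2
  have h4 := h 1 2 0; have h5 := h 2 0 1; have h6 := h 2 1 0
  rw [abs_le] at *
  rw [det3_eq]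
  constructor <;> nlinarith

lemma exists_embed {T κ : Type*} [Fintype κ] (p : ℕ) [Fact p.Prime] (d : ℕ)
    (hd : Fintype.card κ = d + 1) (b : ℕ) (hb : b = 12 * (d + 1) ^ 3 * p ^ 3)
    (Φ : κ → T → Fin 3 → ZMod p) :
    ∃ ι : T → V3, ∀ t u v, ∑ i, det3 (Φ i t) (Φ i u) (Φ i v) ≠ 0 → ∀ z : ℤ,
      (b : ℤ) ^ ((d + 2) * d + 1) ≤
        2 * |det3 (ι t) (ι u) (ι v) - p * (b : ℤ) ^ ((d + 2) * d + 1) * z| := by
  classical
  have hp : 0 < p := (Fact.out : p.Prime).pos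
  let e : κ → ℕ := fun i => (Fintype.equivFinOfCardEq hd i : ℕ)
  have he : ∀ i, e i ≤ d := fun i => Nat.lt_succ_iff.1 (Fintype.equivFinOfCardEq hd i).2
  have hinj : ∀ i k, e i = e k → i = k := fun i k h =>
    (Fintype.equivFinOfCardEq hd).injective (Fin.ext h)
  let L : κ → T → V3 := fun i t k => ((Φ i t k).val : ℤ)
  let E := (d + 2) * d
  refine ⟨fun t => ![∑ i, (b : ℤ) ^ (e i + 1) * L i t 0, ∑ i, (b : ℤ) ^ ((d + 1) * e i) * L i t 1,
    ∑ i, (b : ℤ) ^ ((d + 2) * (d - e i)) * L i t 2], ?_⟩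
  intro t u v hne z
  rw [det3_sum]
  let D : κ × κ × κ → ℤ := fun s => det3 ![L s.1 t 0, L s.2.1 t 1, L s.2.2 t 2]
    ![L s.1 u 0, L s.2.1 u 1, L s.2.2 u 2] ![L s.1 v 0, L s.2.1 v 1, L s.2.2 v 2]
  have hL : ∀ i t k, |L i t k| ≤ p := by
    intro i t k
    simp only [L]
    rw [abs_of_nonneg (by positivity)]
    exact_mod_cast (ZMod.val_lt _).le
  have hD : ∀ s, |D s| ≤ 6 * (p : ℤ) ^ 3 := by
    intro s
    apply det3_abs_le <;> intro i <;> fin_cases i <;> exact hL _ _ _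
  have hb0 : (0 : ℤ) < b := by rw [hb]; positivity
  have hb1 : (1 : ℤ) ≤ b := hb0
  obtain ⟨b', hb'⟩ : (p : ℤ) ∣ b := by
    rw [hb]; push_cast
    exact Dvd.dvd.mul_left (dvd_pow_self _ (by norm_num)) _
  have hterm : ∀ s : κ × κ × κ, ∃ hi lw : ℤ,
      (b : ℤ) ^ (e s.1 + 1) * (b : ℤ) ^ ((d + 1) * e s.2.1) * (b : ℤ) ^ ((d + 2) * (d - e s.2.2))
        * D s = (if s.1 = s.2.1 ∧ s.1 = s.2.2 then (b : ℤ) ^ (E + 1) * D s else 0)
          + p * (b : ℤ) ^ (E + 1) * hi + lw ∧ |lw| ≤ 6 * (p : ℤ) ^ 3 * (b : ℤ) ^ E := by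
    rintro ⟨i, k, l⟩
    dsimp only
    rw [← pow_add, ← pow_add]
    obtain ⟨r, hr⟩ := Nat.exists_eq_add_of_le (he l)
    have hr' : d - e l = r := by omega
    rw [hr']
    rcases lt_trichotomy (e i + 1 + (d + 1) * e k + (d + 2) * r) (E + 1) with h | h | h
    · refine ⟨0, (b : ℤ) ^ (e i + 1 + (d + 1) * e k + (d + 2) * r) * D (i, k, l), ?_, ?_⟩
      · rw [if_neg]
        · ring
        · rintro ⟨rfl, rfl⟩
          simp only [E] at h
          nlinarith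
      · rw [abs_mul, abs_of_nonneg (by positivity), mul_comm]
        apply mul_le_mul (hD _) (pow_le_pow_right₀ hb1 (by omega)) (by positivity) (by positivity)
    · refine ⟨0, 0, ?_, by simp; positivity⟩
      have h1 : e i + (d + 1) * e k = e l + (d + 1) * e l := by
        simp only [E] at h
        nlinarith
      have h2 : e k = e l := by
        have a1 := he i; have a2 := he l
        rcases lt_trichotomy (e k) (e l) with g | g | g
        · nlinarith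
        · exact g
        · nlinarith
      have h3 : e i = e l := by rw [h2] at h1; omega
      rw [if_pos ⟨hinj _ _ (h3.trans h2.symm), hinj _ _ h3⟩, h]
      ring
    · obtain ⟨r', hr'⟩ := Nat.exists_eq_add_of_lt h
      refine ⟨b' * (b : ℤ) ^ r' * D (i, k, l), 0, ?_, by simp; positivity⟩
      rw [if_neg]
      · rw [hr', pow_succ, pow_add]
        linear_combination ((b : ℤ) ^ (E + 1) * (b : ℤ) ^ r' * D (i, k, l)) * hb'
      · rintro ⟨rfl, rfl⟩
        simp only [E] at h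
        nlinarith
  choose hi lw h1 h2 using hterm
  have hsum : ∑ s : κ × κ × κ, (b : ℤ) ^ (e s.1 + 1) * (b : ℤ) ^ ((d + 1) * e s.2.1) *
      (b : ℤ) ^ ((d + 2) * (d - e s.2.2)) * D s =
      (b : ℤ) ^ (E + 1) * (∑ i, D (i, i, i)) + p * (b : ℤ) ^ (E + 1) * ∑ s, hi s + ∑ s, lw s := by
    simp only [h1, sum_add_distrib, Finset.mul_sum]
    congr 2
    rw [Fintype.sum_prod_type]
    apply Finset.sum_congr rfl
    intro i _
    rw [Finset.sum_eq_single (i, i)]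
    · simp
    · rintro ⟨k, l⟩ _ hkl
      rw [if_neg]
      rintro ⟨g1, g2⟩
      exact hkl (Prod.ext g1.symm g2.symm)
    · simp
  have hG : ((∑ i, D (i, i, i) : ℤ) : ZMod p) = ∑ i, det3 (Φ i t) (Φ i u) (Φ i v) := by
    push_cast
    apply Finset.sum_congr rfl
    intro i _
    simp only [D, L, det3_eq, Matrix.cons_val_zero, Matrix.cons_val_one, Matrix.cons_val]
    push_cast
    simp
  have hlw : 2 * |∑ s, lw s| ≤ (b : ℤ) ^ (E + 1) := by
    have := (Finset.abs_sum_le_sum_abs lw univ).trans (sum_le_card_nsmul _ _ _ (fun s _ => h2 s))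
    rw [card_univ, Fintype.card_prod, Fintype.card_prod, hd, nsmul_eq_mul] at this
    push_cast at this
    have e : (b : ℤ) ^ (E + 1) = 2 * (((d : ℤ) + 1) * ((d + 1) * (d + 1)) *
        (6 * (p : ℤ) ^ 3 * (b : ℤ) ^ E)) := by
      rw [pow_succ]
      have : (b : ℤ) = 12 * (d + 1) ^ 3 * p ^ 3 := by exact_mod_cast hb
      linear_combination ((b : ℤ) ^ E) * this
    rw [e]; linarith
  change (b : ℤ) ^ (E + 1) ≤ 2 * |∑ s : κ × κ × κ, (b : ℤ) ^ (e s.1 + 1) *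
    (b : ℤ) ^ ((d + 1) * e s.2.1) * (b : ℤ) ^ ((d + 2) * (d - e s.2.2)) * D s
      - p * (b : ℤ) ^ (E + 1) * z|
  rw [hsum]
  set G := ∑ i, D (i, i, i)
  set H := ∑ s, hi s
  set W := ∑ s, lw s
  have hne' : G + p * (H - z) ≠ 0 := by
    intro h0
    apply hne
    rw [← hG]
    have := congrArg (Int.cast : ℤ → ZMod p) h0
    push_cast at this
    simpa using this
  have h3 : 1 ≤ |G + p * (H - z)| := Int.one_le_abs hne'
  have h4 : (b : ℤ) ^ (E + 1) * G + p * (b : ℤ) ^ (E + 1) * H + W - p * (b : ℤ) ^ (E + 1) * z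
      = (b : ℤ) ^ (E + 1) * (G + p * (H - z)) + W := by ring
  rw [h4]
  have h5 : |(b : ℤ) ^ (E + 1) * (G + p * (H - z))| ≤
      |(b : ℤ) ^ (E + 1) * (G + p * (H - z)) + W| + |W| := by
    have := abs_sub ((b : ℤ) ^ (E + 1) * (G + p * (H - z)) + W) W
    simpa using this
  rw [abs_mul, abs_of_nonneg (by positivity)] at h5
  have h6 : (0 : ℤ) < (b : ℤ) ^ (E + 1) := by positivity
  nlinarith

end Vale.Agent.P036
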