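import Vale.Agent.P036.Basic

/-! Counting points of rank two lattices in boxes. -/

namespace Vale.Agent.P036

open Finset

lemma card_lattice2 (S : Set (ℤ × ℤ)) (hsub : ∀ u ∈ S, ∀ v ∈ S, u - v ∈ S) (h : ℕ)
    (hdet : ∀ u ∈ S, ∀ v ∈ S, (h : ℤ) ∣ u.1 * v.2 - u.2 * v.1) (N : ℕ)
    (x y : ℤ × ℤ) (hx : x ∈ S) (hy : y ∈ S) (hx1 : |x.1| ≤ N) (hx2 : |x.2| ≤ N)
    (hy1 : |y.1| ≤ N) (hy2 : |y.2| ≤ N) (hxy : x.1 * y.2 - x.2 * y.1 ≠ 0)
    (T : Finset (ℤ × ℤ)) (hT : ∀ t ∈ T, t ∈ S ∧ |t.1| ≤ N ∧ |t.2| ≤ N) :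
    T.card * h ≤ 18 * N ^ 2 := by
  classical
  -- shortest vector
  have hex : ∃ n : ℕ, ∃ u ∈ S, u ≠ 0 ∧ max u.1.natAbs u.2.natAbs = n := by
    refine ⟨_, x, hx, ?_, rfl⟩
    rintro rfl
    simp at hxy
  set lam := Nat.find hex with hlam
  obtain ⟨u, huS, hu0, hun⟩ : ∃ u ∈ S, u ≠ 0 ∧ max u.1.natAbs u.2.natAbs = lam := Nat.find_spec hex
  have hmin : ∀ v ∈ S, v ≠ 0 → lam ≤ max v.1.natAbs v.2.natAbs := fun v hv hv0 =>
    Nat.find_min' hex ⟨v, hv, hv0, rfl⟩
  have hlam0 : 0 < lam := by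
    rcases Nat.eq_zero_or_pos lam with h0 | h0
    · exfalso; apply hu0
      rw [h0] at hun
      ext <;> simp <;> omega
    · exact h0
  have hlamN : lam ≤ N := by
    have hx0 : x ≠ 0 := by rintro rfl; simp at hxy
    have := hmin x hx hx0
    rw [abs_le] at hx1 hx2
    omega
  have hu1 : |u.1| ≤ lam := by rw [abs_le]; omega
  have hu2 : |u.2| ≤ lam := by rw [abs_le]; omega
  have hbd : ∀ t : ℤ × ℤ, |t.1| ≤ N → |t.2| ≤ N → |u.1 * t.2 - u.2 * t.1| ≤ 2 * lam * N := by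
    intro t h1 h2
    calc |u.1 * t.2 - u.2 * t.1| ≤ |u.1 * t.2| + |u.2 * t.1| := abs_sub _ _
      _ = |u.1| * |t.2| + |u.2| * |t.1| := by rw [abs_mul, abs_mul]
      _ ≤ lam * N + lam * N := by gcongr
      _ = 2 * lam * N := by ring
  have hh0 : 0 < h := by
    rcases Nat.eq_zero_or_pos h with h0 | h0
    · exfalso; have := hdet x hx y hy
      rw [h0] at this; simp at this; exact hxy this
    · exact h0
  have hh : (h : ℤ) ≤ 2 * lam * N := by
    by_cases h1 : u.1 * x.2 - u.2 * x.1 = 0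
    · by_cases h2 : u.1 * y.2 - u.2 * y.1 = 0
      · exfalso
        apply hu0
        have e1 : u.1 * (x.1 * y.2 - x.2 * y.1) = 0 := by linear_combination x.1 * h2 - y.1 * h1
        have e2 : u.2 * (x.1 * y.2 - x.2 * y.1) = 0 := by linear_combination x.2 * h2 - y.2 * h1
        ext
        · simpa [hxy] using e1
        · simpa [hxy] using e2
      · exact (Int.le_of_dvd (abs_pos.2 h2) ((dvd_abs _ _).2 (hdet u huS y hy))).trans
          (hbd y hy1 hy2)
    · exact (Int.le_of_dvd (abs_pos.2 h1) ((dvd_abs _ _).2 (hdet u huS x hx))).trans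
        (hbd x hx1 hx2)
  -- the coordinate realising the norm
  obtain ⟨c, hc1, hc2⟩ : ∃ c : ℤ × ℤ → ℤ,
      (∀ t : ℤ × ℤ, |t.1| ≤ N → |t.2| ≤ N → |c t| ≤ N) ∧
      (∀ s t : ℤ × ℤ, u.1 * s.2 - u.2 * s.1 = u.1 * t.2 - u.2 * t.1 →
        |c s - c t| < lam → max (s - t).1.natAbs (s - t).2.natAbs < lam) := by
    have hl : (0 : ℤ) < lam := by exact_mod_cast hlam0
    rcases le_total u.2.natAbs u.1.natAbs with hle | hle
    · refine ⟨Prod.fst, fun t h1 _ => h1, fun s t he hlt => ?_⟩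
      have hu1' : |u.1| = lam := by rw [Int.abs_eq_natAbs]; omega
      have e : u.1 * (s.2 - t.2) = u.2 * (s.1 - t.1) := by linear_combination he
      have e' : lam * |s.2 - t.2| ≤ lam * |s.1 - t.1| := by
        calc lam * |s.2 - t.2| = |u.1 * (s.2 - t.2)| := by rw [abs_mul, hu1']
          _ = |u.2| * |s.1 - t.1| := by rw [e, abs_mul]
          _ ≤ lam * |s.1 - t.1| := by gcongr
      have e'' : |s.2 - t.2| ≤ |s.1 - t.1| := le_of_mul_le_mul_left e' hl
      simp only [Prod.fst_sub, Prod.snd_sub]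
      rw [Int.abs_eq_natAbs] at hlt
      rw [Int.abs_eq_natAbs, Int.abs_eq_natAbs] at e''
      omega
    · refine ⟨Prod.snd, fun t _ h2 => h2, fun s t he hlt => ?_⟩
      have hu2' : |u.2| = lam := by rw [Int.abs_eq_natAbs]; omega
      have e : u.2 * (s.1 - t.1) = u.1 * (s.2 - t.2) := by linear_combination -he
      have e' : lam * |s.1 - t.1| ≤ lam * |s.2 - t.2| := by
        calc lam * |s.1 - t.1| = |u.2 * (s.1 - t.1)| := by rw [abs_mul, hu2']
          _ = |u.1| * |s.2 - t.2| := by rw [e, abs_mul]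
          _ ≤ lam * |s.2 - t.2| := by gcongr
      have e'' : |s.1 - t.1| ≤ |s.2 - t.2| := le_of_mul_le_mul_left e' hl
      simp only [Prod.fst_sub, Prod.snd_sub]
      rw [Int.abs_eq_natAbs] at hlt
      rw [Int.abs_eq_natAbs, Int.abs_eq_natAbs] at e''
      omega
  have hl : (0 : ℤ) < lam := by exact_mod_cast hlam0
  have hhz : (0 : ℤ) < h := by exact_mod_cast hh0
  set K1 : ℕ := 2 * lam * N / h with hK1
  set K2 : ℕ := 2 * N / lam with hK2
  let f : ℤ × ℤ → ℤ × ℤ := fun t => ((u.1 * t.2 - u.2 * t.1) / h, (c t + N) / lam)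
  have hmaps : ∀ t ∈ T, f t ∈ (Icc (-(K1 : ℤ)) K1) ×ˢ (Icc (0 : ℤ) K2) := by
    intro t ht
    obtain ⟨htS, h1, h2⟩ := hT t ht
    have hb := hbd t h1 h2
    have hc := hc1 t h1 h2
    obtain ⟨k, hk⟩ := hdet u huS t htS
    simp only [f, mem_product, mem_Icc]
    rw [hk, Int.mul_ediv_cancel_left _ hhz.ne']
    rw [hk, abs_mul, abs_of_pos hhz] at hb
    have hk' : |k| ≤ K1 := by
      rw [hK1]; push_cast
      rw [Int.le_ediv_iff_mul_le hhz]; linarith
    rw [abs_le] at hk' hc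
    refine ⟨hk', Int.ediv_nonneg (by linarith) hl.le, ?_⟩
    rw [hK2]; push_cast
    exact Int.ediv_le_ediv hl (by linarith)
  have hinj : Set.InjOn f T := by
    intro s hs t ht hst
    obtain ⟨hsS, hs1, hs2⟩ := hT s hs
    obtain ⟨htS, ht1, ht2⟩ := hT t ht
    simp only [f, Prod.mk.injEq] at hst
    obtain ⟨e1, e2⟩ := hst
    obtain ⟨k, hk⟩ := hdet u huS s hsS
    obtain ⟨k', hk'⟩ := hdet u huS t htS
    rw [hk, hk', Int.mul_ediv_cancel_left _ hhz.ne', Int.mul_ediv_cancel_left _ hhz.ne'] at e1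
    have he : u.1 * s.2 - u.2 * s.1 = u.1 * t.2 - u.2 * t.1 := by rw [hk, hk', e1]
    have hlt : |c s - c t| < lam := by
      have a1 := Int.emod_add_mul_ediv (c s + N) lam
      have a2 := Int.emod_add_mul_ediv (c t + N) lam
      have b1 := Int.emod_nonneg (c s + N) hl.ne'
      have b2 := Int.emod_nonneg (c t + N) hl.ne'
      have c1 := Int.emod_lt_of_pos (c s + N) hl
      have c2 := Int.emod_lt_of_pos (c t + N) hl
      rw [e2] at a1
      rw [abs_lt]; constructor <;> linarith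
    have := hc2 s t he hlt
    by_contra hne
    have := hmin (s - t) (hsub s hsS t htS) (sub_ne_zero.2 hne)
    omega
  have hcard := Finset.card_le_card_of_injOn f hmaps hinj
  rw [card_product, Int.card_Icc, Int.card_Icc] at hcard
  have e1 : ((K1 : ℤ) + 1 - -(K1 : ℤ)).toNat = 2 * K1 + 1 := by
    generalize K1 = z; omega
  have e2 : ((K2 : ℤ) + 1 - 0).toNat = K2 + 1 := by
    generalize K2 = z; omega
  rw [e1, e2] at hcard
  have hh' : h ≤ 2 * lam * N := by exact_mod_cast hh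
  have f1 : K1 * h ≤ 2 * lam * N := Nat.div_mul_le_self _ _
  have f2 : K2 * lam ≤ 2 * N := Nat.div_mul_le_self _ _
  have g1 : (2 * K1 + 1) * h ≤ 6 * lam * N := by nlinarith
  have g2 : (K2 + 1) * lam ≤ 3 * N := by nlinarith
  have : T.card * h * lam ≤ 18 * N ^ 2 * lam := by
    calc T.card * h * lam ≤ (2 * K1 + 1) * (K2 + 1) * h * lam := by gcongr
      _ = ((2 * K1 + 1) * h) * ((K2 + 1) * lam) := by ring
      _ ≤ (6 * lam * N) * (3 * N) := by gcongr
      _ = 18 * N ^ 2 * lam := by ring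
  exact Nat.le_of_mul_le_mul_right this hlam0

lemma dvd_cross {W x y : Fin 3 → ℤ} (hW : Prim W) (hx : dot W x = 0) (hy : dot W y = 0)
    (i : Fin 3) : cross x y i = W i * (dot hW.choose (cross x y)) := by
  have ha := hW.choose_spec
  generalize hW.choose = a at *
  simp only [dot] at *
  have : i = 0 ∨ i = 1 ∨ i = 2 := by fin_cases i <;> simp
  rcases this with rfl | rfl | rfl
  · simp only [cross_0, cross_1, cross_2]
    linear_combination (-(x 1 * y 2 - x 2 * y 1)) * ha + (a 1 * y 2 - a 2 * y 1) * hx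
      - (a 1 * x 2 - a 2 * x 1) * hy
  · simp only [cross_0, cross_1, cross_2]
    linear_combination (-(x 2 * y 0 - x 0 * y 2)) * ha + (a 2 * y 0 - a 0 * y 2) * hx
      - (a 2 * x 0 - a 0 * x 2) * hy
  · simp only [cross_0, cross_1, cross_2]
    linear_combination (-(x 0 * y 1 - x 1 * y 0)) * ha + (a 0 * y 1 - a 1 * y 0) * hx
      - (a 0 * x 1 - a 1 * x 0) * hy

/-- Points of the plane lattice orthogonal to a primitive vector in a box. -/
lemma card_lattice3 {W : Fin 3 → ℤ} (hW : Prim W) (N : ℕ) {x y : Fin 3 → ℤ}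
    (hx : dot W x = 0) (hy : dot W y = 0) (hxN : x ∈ box N) (hyN : y ∈ box N)
    (hxy : cross x y ≠ 0) (T : Finset (Fin 3 → ℤ)) (hT : ∀ t ∈ T, dot W t = 0 ∧ t ∈ box N) :
    T.card * nrm W ≤ 18 * N ^ 2 := by
  classical
  obtain ⟨i, hi⟩ := exists_nrm W
  have hWi : W i ≠ 0 := by
    intro h
    rw [h] at hi
    exact hW.ne_zero (nrm_eq_zero.1 (by simpa using hi.symm))
  let pr : (Fin 3 → ℤ) → ℤ × ℤ := fun t => (t (i + 1), t (i + 2))
  have hpr : ∀ s t : Fin 3 → ℤ, (pr s).1 * (pr t).2 - (pr s).2 * (pr t).1 = cross s t i := by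
    intro s t
    have : i = 0 ∨ i = 1 ∨ i = 2 := by fin_cases i <;> simp
    rcases this with rfl | rfl | rfl <;> simp [pr]
  have hinj : ∀ s t : Fin 3 → ℤ, dot W s = 0 → dot W t = 0 → pr s = pr t → s = t := by
    intro s t hs ht he
    simp only [pr, Prod.mk.injEq] at he
    obtain ⟨e1, e2⟩ := he
    simp only [dot] at hs ht
    rw [vec3_ext]
    have : i = 0 ∨ i = 1 ∨ i = 2 := by fin_cases i <;> simp
    rcases this with rfl | rfl | rfl
    · simp at e1 e2
      refine ⟨mul_left_cancel₀ hWi ?_, e1, e2⟩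
      rw [e1, e2] at hs; linarith
    · simp at e1 e2
      refine ⟨e2, mul_left_cancel₀ hWi ?_, e1⟩
      rw [e1, e2] at hs; linarith
    · simp at e1 e2
      refine ⟨e1, e2, mul_left_cancel₀ hWi ?_⟩
      rw [e1, e2] at hs; linarith
  have key := card_lattice2 (pr '' {t | dot W t = 0}) ?_ (nrm W) ?_ N (pr x) (pr y) ⟨x, hx, rfl⟩
    ⟨y, hy, rfl⟩ (mem_box.1 hxN _) (mem_box.1 hxN _) (mem_box.1 hyN _) (mem_box.1 hyN _) ?_
    (T.image pr) ?_
  · rwa [card_image_of_injOn] at key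
    intro s hs t ht he
    exact hinj s t (hT s hs).1 (hT t ht).1 he
  · rintro _ ⟨s, hs, rfl⟩ _ ⟨t, ht, rfl⟩
    refine ⟨s - t, ?_, rfl⟩
    simp only [Set.mem_ofPred_eq, dot, Pi.sub_apply] at *
    linear_combination hs - ht
  · rintro _ ⟨s, hs, rfl⟩ _ ⟨t, ht, rfl⟩
    rw [hpr, dvd_cross hW hs ht, ← hi]
    exact Dvd.dvd.mul_right (Int.natAbs_dvd.2 dvd_rfl) _
  · rw [hpr]
    intro h0
    apply hxy
    have h1 := dvd_cross hW hx hy i
    rw [h0] at h1
    have h2 : dot hW.choose (cross x y) = 0 := by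
      rcases mul_eq_zero.1 h1.symm with h | h
      · exact absurd h hWi
      · exact h
    funext k
    rw [dvd_cross hW hx hy k, h2]; simp
  · intro t ht
    obtain ⟨s, hs, rfl⟩ := mem_image.1 ht
    exact ⟨⟨s, (hT s hs).1, rfl⟩, mem_box.1 (hT s hs).2 _, mem_box.1 (hT s hs).2 _⟩

end Vale.Agent.P036
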