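import Vale.Agent.P036.Counts
import Vale.Agent.P036.Fields

/-! The random selection and its bad triples. -/

namespace Vale.Agent.P036

open Finset

set_option linter.unusedSectionVars false

noncomputable def lo (N : ℕ) : Fin 3 → ℤ := ![0, 0, N]

noncomputable def Om (N : ℕ) : Finset V3 :=
  Fintype.piFinset (fun k => Finset.Ico (lo N k) (lo N k + N))

lemma mem_Om {N : ℕ} {X : V3} : X ∈ Om N ↔
    (0 ≤ X 0 ∧ X 0 < N) ∧ (0 ≤ X 1 ∧ X 1 < N) ∧ (N ≤ X 2 ∧ X 2 < 2 * N) := by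
  simp only [Om, Fintype.mem_piFinset, mem_Ico]
  constructor
  · intro h
    have h0 := h 0; have h1 := h 1; have h2 := h 2
    simp [lo] at h0 h1 h2
    omega
  · intro h k
    have : k = 0 ∨ k = 1 ∨ k = 2 := by fin_cases k <;> simp
    rcases this with rfl | rfl | rfl <;> simp [lo] <;> omega

lemma Om_box {N : ℕ} {X : V3} (h : X ∈ Om N) : X ∈ box (2 * N) := by
  rw [mem_Om] at h
  rw [mem_box]
  intro k
  have : k = 0 ∨ k = 1 ∨ k = 2 := by fin_cases k <;> simp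
  rw [abs_le]
  push_cast
  rcases this with rfl | rfl | rfl <;> omega

lemma Om_diff {N : ℕ} {X Y : V3} (hX : X ∈ Om N) (hY : Y ∈ Om N) (k : Fin 3) :
    |Y k - X k| < N := by
  rw [mem_Om] at hX hY
  have : k = 0 ∨ k = 1 ∨ k = 2 := by fin_cases k <;> simp
  rw [abs_lt]
  rcases this with rfl | rfl | rfl <;> omega

def cz (n : ℕ) (X : V3) : Fin 3 → ZMod n := fun k => (X k : ZMod n)

lemma cz_inj {N n : ℕ} (hn : N ≤ n) {X Y : V3} (hX : X ∈ Om N) (hY : Y ∈ Om N)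
    (h : cz n X = cz n Y) : X = Y := by
  funext k
  have h1 : (X k : ZMod n) = Y k := congrFun h k
  rw [ZMod.intCast_eq_intCast_iff_dvd_sub] at h1
  have h2 := Om_diff hX hY k
  have h3 : Y k - X k = 0 := Int.eq_zero_of_abs_lt_dvd h1 (by omega)
  omega

lemma det3_cz (n : ℕ) (X Y Z : V3) :
    det3 (cz n X) (cz n Y) (cz n Z) = ((det3 X Y Z : ℤ) : ZMod n) := by
  simp only [det3_eq, cz]; push_cast; ring

lemma card_cong1 (Q J : ℕ) (hQ : 0 < Q) (a : ℤ) (r : ZMod Q) :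
    ((Finset.Ico a (a + (Q * J : ℕ))).filter (fun x : ℤ => (x : ZMod Q) = r)).card = J := by
  have : NeZero Q := ⟨hQ.ne'⟩
  have h := Int.Ico_filter_modEq_card a (a + (Q * J : ℕ)) (r := Q) (by exact_mod_cast hQ)
    (r.val : ℤ)
  have e : (Finset.Ico a (a + (Q * J : ℕ))).filter (fun x : ℤ => (x : ZMod Q) = r) =
      (Finset.Ico a (a + (Q * J : ℕ))).filter (fun x : ℤ => x ≡ (r.val : ℤ) [ZMOD (Q : ℤ)]) := by
    apply filter_congr
    intro x _
    rw [← ZMod.intCast_eq_intCast_iff]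
    simp
  rw [e]
  have hQ' : (Q : ℚ) ≠ 0 := by positivity
  have e2 : (((a + (Q * J : ℕ) : ℤ) : ℚ) - ((r.val : ℤ) : ℚ)) / ((Q : ℤ) : ℚ)
      = ((a : ℚ) - ((r.val : ℤ) : ℚ)) / ((Q : ℤ) : ℚ) + (J : ℕ) := by
    push_cast; field_simp; ring
  rw [e2, Int.ceil_add_natCast] at h
  omega

lemma card_cong3 (Q J : ℕ) (hQ : 0 < Q) (r : Fin 3 → ZMod Q) :
    ((Om (Q * J)).filter (fun X => cz Q X = r)).card = J ^ 3 := by
  have : (Om (Q * J)).filter (fun X => cz Q X = r) = Fintype.piFinset (fun k =>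
      (Finset.Ico (lo (Q * J) k) (lo (Q * J) k + (Q * J : ℕ))).filter
        (fun x : ℤ => (x : ZMod Q) = r k)) := by
    ext X
    simp only [Om, mem_filter, Fintype.mem_piFinset, funext_iff, cz]
    constructor
    · rintro ⟨h1, h2⟩ k; exact ⟨h1 k, h2 k⟩
    · intro h; exact ⟨fun k => (h k).1, fun k => (h k).2⟩
  rw [this, Fintype.card_piFinset]
  simp only [card_cong1 Q J hQ]
  simp

lemma cross_self {R : Type*} [CommRing R] (a : Fin 3 → R) : cross a a = 0 := by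
  rw [vec3_eq_zero]; simp only [cross_0, cross_1, cross_2]; refine ⟨?_, ?_, ?_⟩ <;> ring

lemma exists_rel {X Y Z : V3} (h : cross X Y ≠ 0) (hd : det3 X Y Z = 0) :
    ∃ v : V3, Prim v ∧ ∀ i, v 0 * X i + v 1 * Y i + v 2 * Z i = 0 := by
  obtain ⟨k, hk⟩ : ∃ k, cross X Y k ≠ 0 := by
    by_contra hc
    push Not at hc
    exact h (funext hc)
  have hu : (![cross Y Z k, cross Z X k, cross X Y k] : V3) ≠ 0 := by
    intro h0
    exact hk (congrFun h0 2)
  obtain ⟨v, c, hv, hc, he⟩ := exists_prim hu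
  have e0 := he 0; have e1 := he 1; have e2 := he 2
  simp only [Matrix.cons_val_zero, Matrix.cons_val_one, Matrix.cons_val] at e0 e1 e2
  refine ⟨v, hv, fun i => mul_left_cancel₀ hc ?_⟩
  have key : cross Y Z k * X i + cross Z X k * Y i + cross X Y k * Z i = 0 := by
    rw [det3_eq] at hd
    have h1 : k = 0 ∨ k = 1 ∨ k = 2 := by fin_cases k <;> simp
    have h2 : i = 0 ∨ i = 1 ∨ i = 2 := by fin_cases i <;> simp
    rcases h1 with rfl | rfl | rfl <;> rcases h2 with rfl | rfl | rfl <;>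
      simp only [cross_0, cross_1, cross_2] <;> first | linear_combination hd | ring
  linear_combination key - X i * e0 - Y i * e1 - Z i * e2

variable {Q j : ℕ} [Fact Q.Prime] [Fact j.Prime]

/-- geometric part of being a bad triple -/
def Geo (N A : ℕ) (ν : ZMod j) (t : V3 × V3 × V3) : Prop :=
  t.1 ∈ Om N ∧ t.2.1 ∈ Om N ∧ t.2.2 ∈ Om N ∧ cross t.1 t.2.1 ≠ 0 ∧ cross t.1 t.2.2 ≠ 0 ∧
    cross t.2.1 t.2.2 ≠ 0 ∧ |det3 t.1 t.2.1 t.2.2| < A ∧
    ∃ θ, sel ν θ (cz j t.1) ∧ sel ν θ (cz j t.2.1) ∧ sel ν θ (cz j t.2.2)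

lemma Geo.ne {N A : ℕ} {ν : ZMod j} (hj : N ≤ j) {t : V3 × V3 × V3} (h : Geo N A ν t) :
    cz j t.1 ≠ cz j t.2.1 ∧ cz j t.1 ≠ cz j t.2.2 ∧ cz j t.2.1 ≠ cz j t.2.2 := by
  obtain ⟨h1, h2, h3, h4, h5, h6, -⟩ := h
  refine ⟨fun h => h4 ?_, fun h => h5 ?_, fun h => h6 ?_⟩
  · rw [cz_inj hj h1 h2 h, cross_self]
  · rw [cz_inj hj h1 h3 h, cross_self]
  · rw [cz_inj hj h2 h3 h, cross_self]

lemma Geo.rel {N A : ℕ} {ν : ZMod j} (hν : ¬ IsSquare ν) (hj : N ≤ j) {t : V3 × V3 × V3}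
    (h : Geo N A ν t) (hd : det3 t.1 t.2.1 t.2.2 = 0) :
    ∃ v : V3, Prim v ∧ v 0 + v 1 + v 2 ≠ 0 ∧ ∀ i, v 0 * t.1 i + v 1 * t.2.1 i + v 2 * t.2.2 i = 0 := by
  obtain ⟨n1, n2, n3⟩ := h.ne hj
  obtain ⟨h1, h2, h3, h4, h5, h6, h7, θ, s1, s2, s3⟩ := h
  obtain ⟨v, hv, hr⟩ := exists_rel h4 hd
  refine ⟨v, hv, fun hs => ?_, hr⟩
  obtain ⟨z0, z1, z2⟩ := sel_rel hν s1 s2 s3 n1 n2 n3 (a := v 0) (b := v 1) (c := v 2)
    (by exact_mod_cast congrArg (Int.cast : ℤ → ZMod j) hs)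
    (fun i => by
      have := congrArg (Int.cast : ℤ → ZMod j) (hr i)
      push_cast at this
      exact this)
  obtain ⟨a, ha⟩ := hv
  have := congrArg (Int.cast : ℤ → ZMod j) ha
  simp only [dot] at this
  push_cast at this
  rw [z0, z1, z2] at this
  simp at this

noncomputable def R1 (N : ℕ) : ℝ :=
  23328 * ((2 * N : ℕ) : ℝ) ^ 4 * ((2 * N : ℕ) : ℝ) ^ 2 * sig (18 * (2 * N) ^ 2)
noncomputable def R2 (N Q : ℕ) : ℝ :=
  (18 * ((2 * N : ℕ) : ℝ) ^ 2) ^ 3 * ((27 + 8 * sig (18 * (2 * N) ^ 2)) / (Q : ℝ) ^ 3)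
noncomputable def R3 (N J : ℕ) : ℝ :=
  23328 * (J : ℝ) ^ 4 * ((2 * N : ℕ) : ℝ) ^ 2 * sig (18 * J ^ 2)

lemma R1_nonneg (N : ℕ) : 0 ≤ R1 N := by
  have := sig_nonneg (18 * (2 * N) ^ 2); unfold R1; positivity
lemma R2_nonneg (N Q : ℕ) : 0 ≤ R2 N Q := by
  have := sig_nonneg (18 * (2 * N) ^ 2); unfold R2; positivity
lemma R3_nonneg (N J : ℕ) : 0 ≤ R3 N J := by
  have := sig_nonneg (18 * J ^ 2); unfold R3; positivity

/-- matrices sending the internal triple to the physical triple -/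
def GG (a b c : Fin 3 → ZMod Q) (t : V3 × V3 × V3) : Finset (Fin 3 → Fin 3 → ZMod Q) :=
  (SL (ZMod Q)).filter (fun g => act g a = cz Q t.1 ∧ act g b = cz Q t.2.1 ∧ act g c = cz Q t.2.2)

lemma GG_det {a b c : Fin 3 → ZMod Q} {t : V3 × V3 × V3} {g : Fin 3 → Fin 3 → ZMod Q}
    (hg : g ∈ GG a b c t) : det3 a b c = ((det3 t.1 t.2.1 t.2.2 : ℤ) : ZMod Q) := by
  rw [GG, mem_filter, mem_SL] at hg
  have := det3_act g a b c
  rw [hg.1, hg.2.1, hg.2.2.1, hg.2.2.2, det3_cz, one_mul] at this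
  exact this.symm

lemma sum_le_card_mul {α : Type*} (S : Finset α) (f : α → ℕ) (c : ℕ) (R : ℝ)
    (hf : ∀ t ∈ S, f t ≤ c) (hR : ∀ S' : Finset α, (∀ t ∈ S', t ∈ S ∧ f t ≠ 0) → (S'.card : ℝ) ≤ R) :
    ((∑ t ∈ S, f t : ℕ) : ℝ) ≤ c * R := by
  rw [← Finset.sum_filter_ne_zero]
  have h1 : ∑ t ∈ S.filter (fun t => f t ≠ 0), f t ≤ (S.filter (fun t => f t ≠ 0)).card * c := by
    have := Finset.sum_le_card_nsmul (S.filter (fun t => f t ≠ 0)) f c
      (fun t ht => hf t (mem_filter.1 ht).1)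
    simpa using this
  have h2 := hR (S.filter (fun t => f t ≠ 0)) (fun t ht => mem_filter.1 ht)
  calc ((∑ t ∈ S.filter (fun t => f t ≠ 0), f t : ℕ) : ℝ)
      ≤ (((S.filter (fun t => f t ≠ 0)).card * c : ℕ) : ℝ) := by exact_mod_cast h1
    _ = c * ((S.filter (fun t => f t ≠ 0)).card : ℝ) := by push_cast; ring
    _ ≤ c * R := by gcongr

lemma part1 {N A : ℕ} {ν : ZMod j} (hA : 2 * A ≤ Q) (a b c : Fin 3 → ZMod Q)
    (S : Finset (V3 × V3 × V3)) (hS : ∀ t ∈ S, Geo N A ν t ∧ det3 t.1 t.2.1 t.2.2 ≠ 0) :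
    ((∑ t ∈ S, (GG a b c t).card : ℕ) : ℝ) ≤ R1 N := by
  have := sum_le_card_mul S (fun t => (GG a b c t).card) 1 (R1 N) ?_ ?_
  · simpa using this
  · intro t ht
    rcases (GG a b c t).eq_empty_or_nonempty with he | ⟨g, hg⟩
    · simp [he]
    have hd := GG_det hg
    apply card_SL1
    rw [hd, Ne, ZMod.intCast_zmod_eq_zero_iff_dvd]
    intro hdvd
    have h7 := (hS t ht).1.2.2.2.2.2.2.1
    exact (hS t ht).2 (Int.eq_zero_of_abs_lt_dvd hdvd (by omega))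
  · intro S' hS'
    rcases S'.eq_empty_or_nonempty with he | ⟨t0, ht0⟩
    · simp [he, R1_nonneg]
    apply count_triples (2 * N) (2 * N) (by omega) (det3 t0.1 t0.2.1 t0.2.2)
    intro t ht
    obtain ⟨g, hg⟩ := card_ne_zero.1 (hS' t ht).2
    obtain ⟨g0, hg0⟩ := card_ne_zero.1 (hS' t0 ht0).2
    obtain ⟨h1, h2, h3, h4, h5, h6, h7, -⟩ := (hS t (hS' t ht).1).1
    have h7' := (hS t0 (hS' t0 ht0).1).1.2.2.2.2.2.2.1
    refine ⟨Om_box h1, Om_box h2, Om_box h3, h4, ?_⟩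
    have e := (GG_det hg).symm.trans (GG_det hg0)
    rw [ZMod.intCast_eq_intCast_iff_dvd_sub] at e
    have := Int.eq_zero_of_abs_lt_dvd e (by
      rw [abs_lt] at *
      omega)
    omega

lemma part2 {N A : ℕ} {ν : ZMod j} (hν : ¬ IsSquare ν) (hj : N ≤ j) (a b c : Fin 3 → ZMod Q)
    (hab : cross a b ≠ 0 ∨ cross a c ≠ 0)
    (hrel : ∀ v : Fin 3 → ZMod Q, (∀ i, v 0 * a i + v 1 * b i + v 2 * c i = 0) →
      v 0 + v 1 + v 2 = 0)
    (S : Finset (V3 × V3 × V3)) (hS : ∀ t ∈ S, Geo N A ν t ∧ det3 t.1 t.2.1 t.2.2 = 0) :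
    ((∑ t ∈ S, (GG a b c t).card : ℕ) : ℝ) ≤ (Q : ℝ) ^ 3 * R2 N Q := by
  classical
  have hQ : 0 < Q := (Fact.out : Q.Prime).pos
  have := sum_le_card_mul S (fun t => (GG a b c t).card) (Q ^ 2) (Q * R2 N Q) ?_ ?_
  · calc _ ≤ _ := this
      _ = _ := by push_cast; ring
  · intro t ht
    rcases hab with h | h
    · have := card_SL2 h (cz Q t.1) (cz Q t.2.1)
      rw [ZMod.card] at this
      refine le_trans (card_le_card ?_) this
      intro g hg
      rw [GG, mem_filter] at hg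
      rw [mem_filter]
      exact ⟨hg.1, hg.2.1, hg.2.2.1⟩
    · have := card_SL2 h (cz Q t.1) (cz Q t.2.2)
      rw [ZMod.card] at this
      refine le_trans (card_le_card ?_) this
      intro g hg
      rw [GG, mem_filter] at hg
      rw [mem_filter]
      exact ⟨hg.1, hg.2.1, hg.2.2.2⟩
  · intro S' hS'
    let P : V3 × V3 × V3 → V3 → Prop := fun t v => Prim v ∧ v 0 + v 1 + v 2 ≠ 0 ∧
      ∀ i, v 0 * t.1 i + v 1 * t.2.1 i + v 2 * t.2.2 i = 0
    let pv : V3 × V3 × V3 → V3 := fun t => if h : ∃ v, P t v then h.choose else 0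
    have hpv : ∀ t ∈ S', P t (pv t) := by
      intro t ht
      have h : ∃ v, P t v := (hS t (hS' t ht).1).1.rel hν hj (hS t (hS' t ht).1).2
      simp only [pv, dif_pos h]
      exact h.choose_spec
    have hin : ∀ t ∈ S', ∀ i, cz Q (pv t) 0 * a i + cz Q (pv t) 1 * b i + cz Q (pv t) 2 * c i = 0 := by
      intro t ht
      obtain ⟨g, hg⟩ := card_ne_zero.1 (hS' t ht).2
      rw [GG, mem_filter] at hg
      obtain ⟨hg, e1, e2, e3⟩ := hg
      have : (fun i => cz Q (pv t) 0 * a i + cz Q (pv t) 1 * b i + cz Q (pv t) 2 * c i) = 0 := by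
        apply act_inj hg
        funext i
        have f1 := congrFun e1 i; have f2 := congrFun e2 i; have f3 := congrFun e3 i
        have f4 := congrArg (Int.cast : ℤ → ZMod Q) ((hpv t ht).2.2 i)
        push_cast at f4
        simp only [act, dot, cz, Pi.zero_apply] at f1 f2 f3 ⊢
        linear_combination f4 + (pv t 0 : ZMod Q) * f1 + (pv t 1 : ZMod Q) * f2
          + (pv t 2 : ZMod Q) * f3
      exact fun i => congrFun this i
    have key := card_le_real_mul S' (fun t => cz Q (pv t))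
      (univ.filter (fun v : Fin 3 → ZMod Q => ∀ i, v 0 * a i + v 1 * b i + v 2 * c i = 0))
      (fun t ht => by rw [mem_filter]; exact ⟨mem_univ _, hin t ht⟩) (R2 N Q) ?_
    · have h2 := card_rel hab
      rw [ZMod.card] at h2
      calc _ ≤ _ := key
        _ ≤ _ := mul_le_mul_of_nonneg_right (by exact_mod_cast h2) (R2_nonneg _ _)
    · intro vb hvb
      apply count_rel (2 * N) Q hQ vb
      intro t ht
      rw [mem_filter] at ht
      obtain ⟨ht, hvt⟩ := ht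
      obtain ⟨h1, h2, h3, h4, h5, h6, h7, -⟩ := (hS t (hS' t ht).1).1
      obtain ⟨p1, p2, p3⟩ := hpv t ht
      refine ⟨Om_box h1, Om_box h2, Om_box h3, h4, pv t, p1, fun i => congrFun hvt i, ?_, p3⟩
      have s0 := hrel _ (hin t ht)
      have s1 : ((pv t 0 + pv t 1 + pv t 2 : ℤ) : ZMod Q) = 0 := by push_cast; exact s0
      rw [ZMod.intCast_zmod_eq_zero_iff_dvd] at s1
      have s2 := Int.le_of_dvd (abs_pos.2 p2) ((dvd_abs _ _).2 s1)
      have b0 := abs_le_nrm (pv t) 0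
      have b1 := abs_le_nrm (pv t) 1
      have b2 := abs_le_nrm (pv t) 2
      have s3 : |pv t 0 + pv t 1 + pv t 2| ≤ |pv t 0| + |pv t 1| + |pv t 2| := abs_add_three _ _ _
      omega

lemma part3 {J A : ℕ} {ν : ZMod j} (hν : ¬ IsSquare ν) (hj : Q * J ≤ j) (a : Fin 3 → ZMod Q)
    (ha : a ≠ 0)
    (S : Finset (V3 × V3 × V3)) (hS : ∀ t ∈ S, Geo (Q * J) A ν t ∧ det3 t.1 t.2.1 t.2.2 = 0) :
    ((∑ t ∈ S, (GG a a a t).card : ℕ) : ℝ) ≤ (Q : ℝ) ^ 5 * R3 (Q * J) J := by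
  classical
  have hQ : 0 < Q := (Fact.out : Q.Prime).pos
  have hQz : (Q : ℤ) ≠ 0 := by positivity
  have := sum_le_card_mul S (fun t => (GG a a a t).card) (Q ^ 5) (R3 (Q * J) J) ?_ ?_
  · calc _ ≤ _ := this
      _ = _ := by push_cast; ring
  · intro t ht
    have := card_SL3 ha (cz Q t.1)
    rw [ZMod.card] at this
    refine le_trans (card_le_card ?_) this
    intro g hg
    rw [GG, mem_filter] at hg
    rw [mem_filter]
    exact ⟨hg.1, hg.2.1⟩
  · intro S' hS'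
    let φ : V3 × V3 × V3 → V3 × V3 × V3 := fun t =>
      (fun i => (t.2.1 i - t.1 i) / Q, fun i => (t.2.2 i - t.1 i) / Q, t.1)
    have hφ : ∀ t ∈ S', ∀ i, t.2.1 i = t.1 i + Q * (φ t).1 i ∧ t.2.2 i = t.1 i + Q * (φ t).2.1 i := by
      intro t ht i
      obtain ⟨g, hg⟩ := card_ne_zero.1 (hS' t ht).2
      rw [GG, mem_filter] at hg
      obtain ⟨hg, e1, e2, e3⟩ := hg
      have f1 : (t.1 i : ZMod Q) = t.2.1 i := congrFun (e1.symm.trans e2) i
      have f2 : (t.1 i : ZMod Q) = t.2.2 i := congrFun (e1.symm.trans e3) i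
      rw [ZMod.intCast_eq_intCast_iff_dvd_sub] at f1 f2
      simp only [φ]
      rw [Int.mul_ediv_cancel' f1, Int.mul_ediv_cancel' f2]
      constructor <;> ring
    have hc : S'.card = (S'.image φ).card := by
      rw [card_image_of_injOn]
      intro s hs t ht hst
      have e3 : s.1 = t.1 := congrArg (fun x => x.2.2) hst
      ext1
      · exact e3
      · ext1
        · funext i
          rw [(hφ s hs i).1, (hφ t ht i).1, hst, e3]
        · funext i
          rw [(hφ s hs i).2, (hφ t ht i).2, hst, e3]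
    rw [hc]
    apply count_triples J (2 * (Q * J)) (by nlinarith) 0
    intro s hs
    obtain ⟨t, ht, rfl⟩ := mem_image.1 hs
    obtain ⟨v, p1, p2, p3⟩ := (hS t (hS' t ht).1).1.rel hν hj (hS t (hS' t ht).1).2
    have hd := (hS t (hS' t ht).1).2
    obtain ⟨h1, h2, h3, h4, h5, h6, h7, -⟩ := (hS t (hS' t ht).1).1
    have hb : ∀ x y u : ℤ, y = x + Q * u → |y - x| < (Q * J : ℕ) → |u| ≤ J := by
      intro x y u e hlt
      have : y - x = Q * u := by linarith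
      rw [this, abs_mul] at hlt
      push_cast at hlt
      rw [abs_of_pos (by exact_mod_cast hQ)] at hlt
      exact (lt_of_mul_lt_mul_left hlt (by positivity)).le
    have a0 := hφ t ht 0; have a1 := hφ t ht 1; have a2 := hφ t ht 2
    refine ⟨mem_box.2 fun i => hb _ _ _ (hφ t ht i).1 (Om_diff h1 h2 i),
      mem_box.2 fun i => hb _ _ _ (hφ t ht i).2 (Om_diff h1 h3 i), Om_box h1, ?_, ?_⟩
    · intro h0
      apply h4
      have q0 := p3 0; have q1 := p3 1; have q2 := p3 2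
      rw [vec3_eq_zero] at h0 ⊢
      simp only [cross_0, cross_1, cross_2] at h0 ⊢
      generalize (φ t).1 = U at *
      generalize (φ t).2.1 = V at *
      rw [a0.1, a0.2] at q0
      rw [a1.1, a1.2] at q1
      rw [a2.1, a2.2] at q2
      rw [a0.1, a1.1, a2.1]
      obtain ⟨c0, c1, c2⟩ := h0
      refine ⟨?_, ?_, ?_⟩ <;> apply mul_left_cancel₀ p2
      · linear_combination (Q * U 2) * q1 - (Q * U 1) * q2 + (Q * Q * v 2) * c0
      · linear_combination (Q * U 0) * q2 - (Q * U 2) * q0 + (Q * Q * v 2) * c1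
      · linear_combination (Q * U 1) * q0 - (Q * U 0) * q1 + (Q * Q * v 2) * c2
    · have e : (φ t).2.2 = t.1 := rfl
      rw [e]
      rw [det3_eq] at hd ⊢
      generalize (φ t).1 = U at *
      generalize (φ t).2.1 = V at *
      rw [a0.1, a0.2, a1.1, a1.2, a2.1, a2.2] at hd
      apply mul_left_cancel₀ (mul_ne_zero hQz hQz)
      linear_combination hd

end Vale.Agent.P036
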