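import Vale.Agent.P036.Gadget

/-! Thickening the gadget modulo a large prime. -/

namespace Vale.Agent.P036

open Finset

lemma exists_slopes {T : Type*} [Fintype T] (m : ℕ) (hm : Fintype.card T = m) (q B : ℤ) (hq : 0 < q)
    (ι : T → V3)
    (h : ∀ t u v, t ≠ u → t ≠ v → u ≠ v → ∀ z : ℤ, B ≤ 2 * |det3 (ι t) (ι u) (ι v) - q * z|) :
    ∃ ι' : T → V3,
      (∀ t u v, t ≠ u → t ≠ v → u ≠ v → ∀ z : ℤ, B ≤ 2 * |det3 (ι' t) (ι' u) (ι' v) - q * z|) ∧
      (∀ t, 0 < ι' t 1 ∧ ι' t 1 < q * (2 * m + 1) ∧ 0 ≤ ι' t 2 ∧ ι' t 2 < q * (2 * m + 1)) ∧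
      (∀ t u, t ≠ u → ι' t 1 * ι' u 2 - ι' t 2 * ι' u 1 ≠ 0) := by
  classical
  let e : T → ℕ := fun i => (Fintype.equivFinOfCardEq hm i : ℕ)
  have he : ∀ i, e i < m := fun i => (Fintype.equivFinOfCardEq hm i).2
  have hinj : ∀ i k, e i = e k → i = k := fun i k h =>
    (Fintype.equivFinOfCardEq hm).injective (Fin.ext h)
  let ι' : T → V3 := fun t => ![ι t 0, ι t 1 % q + q * (2 * m), ι t 2 % q + q * (2 * e t)]
  have h1 : ∀ t, ι' t 1 = ι t 1 % q + q * (2 * m) := fun t => rfl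
  have h2 : ∀ t, ι' t 2 = ι t 2 % q + q * (2 * e t) := fun t => rfl
  have b1 : ∀ x : ℤ, 0 ≤ x % q := fun x => Int.emod_nonneg x hq.ne'
  have b2 : ∀ x : ℤ, x % q < q := fun x => Int.emod_lt_of_pos x hq
  refine ⟨ι', ?_, ?_, ?_⟩
  · intro t u v htu htv huv z
    have hc : ∀ t k, ι' t k ≡ ι t k [ZMOD q] := by
      intro t k
      have : k = 0 ∨ k = 1 ∨ k = 2 := by fin_cases k <;> simp
      rcases this with rfl | rfl | rfl
      · rfl
      · rw [h1]; simp [Int.ModEq]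
      · rw [h2]; simp [Int.ModEq]
    have : det3 (ι' t) (ι' u) (ι' v) ≡ det3 (ι t) (ι u) (ι v) [ZMOD q] := by
      simp only [det3_eq]
      refine Int.ModEq.add (Int.ModEq.add ?_ ?_) ?_ <;>
        exact Int.ModEq.mul (Int.ModEq.sub (Int.ModEq.mul (hc _ _) (hc _ _))
          (Int.ModEq.mul (hc _ _) (hc _ _))) (hc _ _)
    obtain ⟨k, hk⟩ := this.dvd
    have := h t u v htu htv huv (z + k)
    have e : det3 (ι' t) (ι' u) (ι' v) - q * z = det3 (ι t) (ι u) (ι v) - q * (z + k) := by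
      linarith
    rwa [e]
  · intro t
    rw [h1, h2]
    have := he t
    have m1 : (1 : ℤ) ≤ m := by exact_mod_cast (by omega : 1 ≤ m)
    have m2 : (e t : ℤ) ≤ m := by exact_mod_cast this.le
    have m3 : (0 : ℤ) ≤ e t := by positivity
    have := b1 (ι t 1); have := b2 (ι t 1); have := b1 (ι t 2); have := b2 (ι t 2)
    refine ⟨by nlinarith, by nlinarith, by nlinarith, by nlinarith⟩
  · have key : ∀ t u, e t < e u → 0 < ι' t 1 * ι' u 2 - ι' t 2 * ι' u 1 := by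
      intro t u htu
      rw [h1, h2, h1, h2]
      have m2 : (e t : ℤ) + 1 ≤ e u := by exact_mod_cast htu
      have m3 : (0 : ℤ) ≤ e t := by positivity
      have m4 : (e u : ℤ) + 1 ≤ m := by exact_mod_cast he u
      have a1 := b1 (ι t 1); have a2 := b2 (ι t 2); have a3 := b1 (ι u 2); have a4 := b2 (ι u 1)
      have a5 := b1 (ι t 2); have a6 := b1 (ι u 1)
      have c1 : q * (2 * m) * (q * (2 * (e t + 1))) ≤
          (ι t 1 % q + q * (2 * m)) * (ι u 2 % q + q * (2 * e u)) := by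
        apply mul_le_mul (by linarith) (by nlinarith) (by positivity) (by positivity)
      have c2 : (ι t 2 % q + q * (2 * e t)) * (ι u 1 % q + q * (2 * m)) <
          (q * (2 * e t + 1)) * (q * (2 * m + 1)) := by
        apply mul_lt_mul'' (by linarith) (by linarith) (by positivity) (by positivity)
      have c3 : (q * (2 * e t + 1)) * (q * (2 * m + 1)) ≤ q * (2 * m) * (q * (2 * (e t + 1))) := by
        have : 0 ≤ q * q * (2 * m - 2 * e t - 1) := by
          apply mul_nonneg (by positivity); linarith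
        nlinarith
      linarith
    intro t u htu
    rcases lt_trichotomy (e t) (e u) with g | g | g
    · exact (key t u g).ne'
    · exact absurd (hinj _ _ g) htu
    · have := key u t g
      intro h0; linarith

lemma exists_internal {T : Type*} [DecidableEq T] (p Q L A : ℕ) [Fact Q.Prime] (B K : ℤ)
    (hB : 0 < B) (hp : 0 < p) (ι : T → V3)
    (h1 : ∀ t u v, t ≠ u → t ≠ v → u ≠ v → ∀ z : ℤ,
      B ≤ 2 * |det3 (ι t) (ι u) (ι v) - p * B * z|)
    (h2 : ∀ t, 0 < ι t 1 ∧ ι t 1 < K ∧ 0 ≤ ι t 2 ∧ ι t 2 < K)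
    (h3 : ∀ t u, t ≠ u → ι t 1 * ι u 2 - ι t 2 * ι u 1 ≠ 0)
    (hK : K ^ 2 < Q) (hL : L ≤ Q) (hA : 2 * p * A + 6 * p * L * K ^ 2 ≤ Q) :
    ∃ w : T × Fin L → Fin 3 → ZMod Q, Internal Q A Prod.fst w := by
  set q : ℤ := p * B with hq
  have hq0 : 0 < q := by positivity
  let W : T × Fin L → V3 := fun i => ![Q * ι i.1 0 / q + (i.2 : ℕ), ι i.1 1, ι i.1 2]
  have hM : ∀ t u, |ι t 1 * ι u 2 - ι t 2 * ι u 1| ≤ K ^ 2 := by
    intro t u
    obtain ⟨a1, a2, a3, a4⟩ := h2 t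
    obtain ⟨b1, b2, b3, b4⟩ := h2 u
    have c1 : ι t 1 * ι u 2 ≤ K * K := mul_le_mul a2.le b4.le b3 (by linarith)
    have c2 : ι t 2 * ι u 1 ≤ K * K := mul_le_mul a4.le b2.le b1.le (by linarith)
    have c3 : 0 ≤ ι t 1 * ι u 2 := by positivity
    have c4 : 0 ≤ ι t 2 * ι u 1 := by positivity
    rw [abs_le]; constructor <;> nlinarith
  have hnz : ∀ x : ℤ, x ≠ 0 → |x| < Q → (x : ZMod Q) ≠ 0 := by
    intro x hx hlt h0
    rw [ZMod.intCast_zmod_eq_zero_iff_dvd] at h0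
    exact hx (Int.eq_zero_of_abs_lt_dvd h0 hlt)
  have hy : ∀ t, (ι t 1 : ZMod Q) ≠ 0 := by
    intro t
    obtain ⟨a1, a2, a3, a4⟩ := h2 t
    apply hnz _ a1.ne'
    rw [abs_of_pos a1]; nlinarith
  have hind : ∀ t u, t ≠ u →
      (ι t 1 : ZMod Q) * ι u 2 - (ι t 2 : ZMod Q) * ι u 1 ≠ 0 := by
    intro t u htu
    have := hnz _ (h3 t u htu) ((hM t u).trans_lt hK)
    push_cast at this
    exact this
  have hrel : ∀ t u, ∀ a b : ZMod Q, a * ι t 1 + b * ι u 1 = 0 → a * ι t 2 + b * ι u 2 = 0 →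
      a + b = 0 := by
    intro t u a b e1 e2
    by_cases htu : t = u
    · subst htu
      apply mul_left_cancel₀ (hy t)
      linear_combination e1
    · have ha : a = 0 := by
        apply mul_left_cancel₀ (hind t u htu)
        linear_combination (ι u 2 : ZMod Q) * e1 - (ι u 1 : ZMod Q) * e2
      have hb : b = 0 := by
        apply mul_left_cancel₀ (hind t u htu)
        linear_combination (ι t 1 : ZMod Q) * e2 - (ι t 2 : ZMod Q) * e1
      rw [ha, hb, add_zero]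
  refine ⟨fun i => cz Q (W i), ?_, ?_, ?_, ?_⟩
  · rintro ⟨i1, i2, i3⟩ ⟨d1, d2, d3⟩ a ha heq
    dsimp only at d1 d2 d3 heq
    rw [det3_cz, ZMod.intCast_eq_intCast_iff_dvd_sub] at heq
    obtain ⟨z, hz⟩ := heq
    have herr : ∀ i : T × Fin L, ∃ r : ℤ, q * W i 0 = Q * ι i.1 0 + r ∧ |r| ≤ q * L := by
      intro i
      refine ⟨q * (i.2 : ℕ) - (Q * ι i.1 0) % q, ?_, ?_⟩
      · have := Int.emod_add_mul_ediv (Q * ι i.1 0) q
        simp only [W, Matrix.cons_val_zero]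
        linear_combination this
      · have a1 := Int.emod_nonneg (Q * ι i.1 0) hq0.ne'
        have a2 := Int.emod_lt_of_pos (Q * ι i.1 0) hq0
        have a3 : ((i.2 : ℕ) : ℤ) + 1 ≤ L := by exact_mod_cast i.2.2
        have a4 : (0 : ℤ) ≤ (i.2 : ℕ) := by positivity
        rw [abs_le]; constructor <;> nlinarith
    obtain ⟨r1, e1, f1⟩ := herr i1
    obtain ⟨r2, e2, f2⟩ := herr i2
    obtain ⟨r3, e3, f3⟩ := herr i3
    have hfar := h1 _ _ _ d1 d2 d3 (-z)
    have key : Q * (det3 (ι i1.1) (ι i2.1) (ι i3.1) - q * (-z)) = q * a -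
        (r1 * (ι i2.1 1 * ι i3.1 2 - ι i2.1 2 * ι i3.1 1) +
          r2 * (ι i3.1 1 * ι i1.1 2 - ι i3.1 2 * ι i1.1 1) +
          r3 * (ι i1.1 1 * ι i2.1 2 - ι i1.1 2 * ι i2.1 1)) := by
      have w1 : ∀ i, W i 1 = ι i.1 1 := fun _ => rfl
      have w2 : ∀ i, W i 2 = ι i.1 2 := fun _ => rfl
      rw [det3_eq, w1, w1, w1, w2, w2, w2] at hz
      rw [det3_eq]
      linear_combination (-q) * hz - (ι i2.1 1 * ι i3.1 2 - ι i2.1 2 * ι i3.1 1) * e1
        - (ι i3.1 1 * ι i1.1 2 - ι i3.1 2 * ι i1.1 1) * e2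
        - (ι i1.1 1 * ι i2.1 2 - ι i1.1 2 * ι i2.1 1) * e3
    have hb : ∀ r M : ℤ, |r| ≤ q * L → |M| ≤ K ^ 2 → |r * M| ≤ q * L * K ^ 2 := by
      intro r M a1 a2
      rw [abs_mul]
      exact mul_le_mul a1 a2 (abs_nonneg _) (by positivity)
    have g1 := hb _ _ f1 (hM i2.1 i3.1)
    have g2 := hb _ _ f2 (hM i3.1 i1.1)
    have g3 := hb _ _ f3 (hM i1.1 i2.1)
    have g4 : |q * a| < q * A := by
      rw [abs_mul, abs_of_pos hq0]; exact mul_lt_mul_of_pos_left ha hq0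
    have g5 : |Q * (det3 (ι i1.1) (ι i2.1) (ι i3.1) - q * (-z))| < q * A + 3 * (q * L * K ^ 2) := by
      rw [key]
      rw [abs_le] at g1 g2 g3
      rw [abs_lt] at g4 ⊢
      constructor <;> linarith
    rw [abs_mul, abs_of_nonneg (by positivity)] at g5
    have g6 : (Q : ℤ) * B ≤ Q * (2 * |det3 (ι i1.1) (ι i2.1) (ι i3.1) - q * (-z)|) :=
      mul_le_mul_of_nonneg_left hfar (by positivity)
    have g7 : (2 * p * A + 6 * p * L * K ^ 2) * B ≤ Q * B := mul_le_mul_of_nonneg_right hA hB.le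
    rw [hq] at g5
    nlinarith
  · rintro ⟨t, u⟩ ⟨t', u'⟩ hne h0
    rw [vec3_eq_zero] at h0
    simp only [cross_0, cross_1, cross_2, cz, W, Matrix.cons_val_zero, Matrix.cons_val_one,
      Matrix.cons_val] at h0
    by_cases htt : t = t'
    · subst htt
      have huu : ((u : ℕ) : ℤ) - (u' : ℕ) ≠ 0 := by
        intro h
        apply hne
        congr 1
        apply Fin.ext
        omega
      have := hnz _ huu (by
        have := u.2; have := u'.2
        rw [abs_lt]; omega)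
      apply mul_ne_zero this (hy t)
      have h02 := h0.2.2
      push_cast at h02 ⊢
      linear_combination h02
    · exact hind t t' htt h0.1
  · intro i h0
    exact hy i.1 (congrFun h0 1)
  · rintro ⟨i1, i2, i3⟩ hd v hv
    have e1 := hv 1
    have e2 := hv 2
    simp only [cz, W, Matrix.cons_val_zero, Matrix.cons_val_one, Matrix.cons_val] at e1 e2
    unfold Dist at hd
    dsimp only at hd
    by_cases a1 : i1.1 = i2.1
    · rw [← a1] at e1 e2
      have := hrel i1.1 i3.1 (v 0 + v 1) (v 2) (by linear_combination e1) (by linear_combination e2)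
      linear_combination this
    by_cases a2 : i1.1 = i3.1
    · rw [← a2] at e1 e2
      have := hrel i1.1 i2.1 (v 0 + v 2) (v 1) (by linear_combination e1) (by linear_combination e2)
      linear_combination this
    have a3 : i2.1 = i3.1 := by
      by_contra a3; exact hd ⟨a1, a2, a3⟩
    rw [← a3] at e1 e2
    have := hrel i1.1 i2.1 (v 0) (v 1 + v 2) (by linear_combination e1) (by linear_combination e2)
    linear_combination this

lemma card_not_dist {T : Type*} [Fintype T] [DecidableEq T] (L : ℕ) :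
    ((univ : Finset ((T × Fin L) × (T × Fin L) × (T × Fin L))).filter
      (fun i => ¬ Dist Prod.fst i)).card ≤ 3 * (Fintype.card T ^ 2 * L ^ 3) := by
  classical
  let U := (univ : Finset ((T × Fin L) × (T × Fin L) × Fin L))
  have hU : U.card = Fintype.card T ^ 2 * L ^ 3 := by simp [U]; ring
  have hsub : (univ : Finset ((T × Fin L) × (T × Fin L) × (T × Fin L))).filter
      (fun i => ¬ Dist Prod.fst i) ⊆
      (U.image (fun s => (s.1, (s.1.1, s.2.2), s.2.1)) ∪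
        U.image (fun s => (s.1, s.2.1, (s.1.1, s.2.2)))) ∪
        U.image (fun s => (s.1, s.2.1, (s.2.1.1, s.2.2))) := by
    rintro ⟨⟨a, x⟩, ⟨b, y⟩, c, z⟩ hi
    rw [mem_filter] at hi
    have hd := hi.2
    unfold Dist at hd
    dsimp only at hd
    simp only [mem_union, mem_image, U, mem_univ, true_and]
    by_cases a1 : a = b
    · left; left; exact ⟨((a, x), (c, z), y), by simp [a1]⟩
    by_cases a2 : a = c
    · left; right; exact ⟨((a, x), (b, y), z), by simp [a2]⟩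
    have a3 : b = c := by
      by_contra a3; exact hd ⟨a1, a2, a3⟩
    right; exact ⟨((a, x), (b, y), z), by simp [a3]⟩
  refine (card_le_card hsub).trans ((card_union_le _ _).trans ?_)
  have h1 := card_union_le (U.image (fun s => (s.1, (s.1.1, s.2.2), s.2.1)))
    (U.image (fun s => (s.1, s.2.1, (s.1.1, s.2.2))))
  have h2 := card_image_le (s := U) (f := fun s => (s.1, (s.1.1, s.2.2), s.2.1))
  have h3 := card_image_le (s := U) (f := fun s => (s.1, s.2.1, (s.1.1, s.2.2)))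
  have h4 := card_image_le (s := U) (f := fun s => (s.1, s.2.1, (s.2.1.1, s.2.2)))
  omega

/-- The gadget, with all sizes explicit: `c` and `e` are absolute constants. -/
theorem gadget : ∃ c e : ℕ, 1 ≤ c ∧ 1 ≤ e ∧ ∀ (p Q L A : ℕ) [Fact p.Prime] [Fact Q.Prime], 5 ≤ p →
    (c * p ^ e) ^ 2 < Q → L ≤ Q → 2 * p * A + 6 * p * L * (c * p ^ e) ^ 2 ≤ Q →
    ∃ w : (ZMod p × ZMod p) × Fin L → Fin 3 → ZMod Q, Internal Q A Prod.fst w := by
  obtain ⟨d, hd⟩ : ∃ d, Fintype.card (Fin 6 × Fin 6 × Fin 6) = d + 1 := ⟨215, by simp⟩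
  refine ⟨3 * (12 * (d + 1) ^ 3) ^ ((d + 2) * d + 1), 3 * ((d + 2) * d + 1) + 3,
    Nat.succ_le_of_lt (by positivity), by omega, ?_⟩
  intro p Q L A _ _ hp h1 h2 h3
  obtain ⟨Φ, hΦ⟩ := exists_decomp p hp
  obtain ⟨ι, hι⟩ := exists_embed p d hd _ rfl Φ
  generalize (d + 2) * d + 1 = E at *
  set b : ℕ := 12 * (d + 1) ^ 3 * p ^ 3 with hb
  have hB : (0 : ℤ) < (b : ℤ) ^ E := by rw [hb]; positivity
  obtain ⟨ι', g1, g2, g3⟩ := exists_slopes (T := ZMod p × ZMod p) (p ^ 2) (by simp [sq])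
    (p * (b : ℤ) ^ E) ((b : ℤ) ^ E) (by positivity) ι
    (fun t u v a1 a2 a3 z => hι t u v (hΦ t u v a1 a2 a3) z)
  have hK : (p * (b : ℤ) ^ E) * (2 * ((p ^ 2 : ℕ) : ℤ) + 1) ≤
      ((3 * (12 * (d + 1) ^ 3) ^ E * p ^ (3 * E + 3) : ℕ) : ℤ) := by
    have : (p * b ^ E) * (2 * p ^ 2 + 1) ≤ 3 * (12 * (d + 1) ^ 3) ^ E * p ^ (3 * E + 3) := by
      have a1 : 2 * p ^ 2 + 1 ≤ 3 * p ^ 2 := by nlinarith
      calc (p * b ^ E) * (2 * p ^ 2 + 1) ≤ (p * b ^ E) * (3 * p ^ 2) := by gcongr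
        _ = _ := by
          rw [hb, mul_pow, ← pow_mul, pow_add]
          generalize (12 * (d + 1) ^ 3) ^ E = x
          generalize p ^ (3 * E) = y
          ring
    exact_mod_cast this
  apply exists_internal p Q L A ((b : ℤ) ^ E)
    ((3 * (12 * (d + 1) ^ 3) ^ E * p ^ (3 * E + 3) : ℕ) : ℤ) hB (by omega) ι' g1 ?_ g3
    (by exact_mod_cast h1) h2 (by exact_mod_cast h3)
  intro t
  obtain ⟨a1, a2, a3, a4⟩ := g2 t
  exact ⟨a1, a2.trans_le hK, a3, a4.trans_le hK⟩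

end Vale.Agent.P036
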